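import Vale.Agent.P141.H831.LcaS
import Vale.Agent.P141.H408.SkelTI2
import Vale.Agent.P141.H816.FDat

/-!
# P141, line (A), (TI): the leaf `LCA1`

The static saturated pair `(Ct, A)` of the definite cut families, natural size.

* `zA_c`, `agA_c`, `massA_c`, `packA_c` : the low part of the gauge, raw fields;
* `zC_1`, `agC_1`, `massC_1`, `packC_1` : the normalised third family;
* `lCA1 : H408.LCA1`.
-/

namespace Vale.Agent.P141.H831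

open Finset Matrix
open Vale.Agent.P141.PL (Pt iv hs ix mem_iv ix_ix cx)
open Vale.Agent.P141.PL.H315 (Tri A2 avg)
open Vale.Agent.P141.H48 (US ES BSl sst)
open Vale.Agent.P141.H103 (un QW)
open Vale.Agent.P141.H205
open Vale.Agent.P141.H305 (Cls ClsM kapM)
open Vale.Agent.P141.H401 (mA mb mC qA qB qC cA cb)
open Vale.Agent.P141.H576 (QD Dd_sst agree_kD QD_root')
open Vale.Agent.P141.H677 (fA fb fC kF KT)
open Vale.Agent.P141.H408 (PairQ beI C1 PCAf)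
open Vale.Agent.P141.H816 (cutG_off lowF_eq_cutG isPrj_prL row_upto mass_kF)

noncomputable section

open scoped Classical

/-! ### The gauge -/

section gauge

variable {p : H401.Num} {s r : ℝ} {U : Tri} {K : ℕ} {g : ℤ → ℤ → ℝ} {F1 : ℕ → Pt → ℝ}
  {Q1 : ℕ → Pt → Prop}

theorem agree_m (Λ : ℝ) (a : ℤ × ℤ → ℝ) {n : ℕ} {e cP : ℝ} {F : ℕ → Pt → ℝ} {Q : ℕ → Pt → Prop}
    (hB : BSl n e cP F Q) {K : ℕ} {k : ℕ} (hk : k < n) {x0 i j : ℤ}
    (hQ : ¬ QD (fun k x y => sst Λ a K k x y) Q k (ix k x0) i j)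
    {x y : ℤ} (hx : x ∈ iv k i) (hy : y ∈ iv k j) :
    kF Λ a K F (k + 1) (x0, x, y) = kF Λ a K F k (x0, x, y) :=
  agree_kD (Dd_sst Λ a K) hB hk hQ hx hy

theorem zA_c (x0 : ℤ) : cA p s r U K g F1 Q1 x0 0 = 0 := rfl

theorem cA_cut (x0 : ℤ) (k : ℕ) (z y : ℤ) :
    cA p s r U K g F1 Q1 x0 k z y =
      H816.cutG (fun k n m => qA p U K Q1 k (ix k x0) n m)
        (fun k n m => prL k (un (mA p U K g F1 x0 (k + 1))) (p.th s r ^ 2) n m)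
        (fun k => un (mA p U K g F1 x0 k)) k z y () := by
  unfold H401.cA H205.low1
  rw [lowF_eq_cutG]

theorem agA_c {k : ℕ} {x0 i m : ℤ} (hQ : ¬ qA p U K Q1 k (ix k x0) i m) {z y : ℤ}
    (hz : z ∈ iv k i) (hy : y ∈ iv k m) :
    cA p s r U K g F1 Q1 x0 (k + 1) z y = cA p s r U K g F1 Q1 x0 k z y := by
  rw [cA_cut, cA_cut]
  rw [cutG_off (Q := fun k n m => qA p U K Q1 k (ix k x0) n m) hQ hz hy]

theorem agM_A {n : ℕ} {e cP : ℝ} (hB : BSl n e cP F1 Q1) {k : ℕ} (hk : k < n) {x0 i m : ℤ}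
    (hQ : ¬ qA p U K Q1 k (ix k x0) i m) {z y : ℤ} (hz : z ∈ iv k i) (hy : y ∈ iv k m) :
    mA p U K g F1 x0 (k + 1) z y = mA p U K g F1 x0 k z y := by
  unfold H401.mA H677.fA
  rw [agree_m p.Lm U.2.2 hB hk hQ hy hz]

/-- rows of the low part of the gauge -/
theorem row_cA {n : ℕ} {e cP : ℝ} (hB : BSl n e cP F1 Q1) (hK : K ≤ n) {k : ℕ} (hk : k < K)
    (x0 z m : ℤ) :
    ∑ y ∈ iv k m, cA p s r U K g F1 Q1 x0 (k + 1) z y ^ 2 ≤
      ∑ y ∈ iv k m, mA p U K g F1 x0 (k + 1) z y ^ 2 := by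
  have h := row_upto (F := fun k => un (mA p U K g F1 x0 k))
    (Q := fun k n m => qA p U K Q1 k (ix k x0) n m)
    (isPrj_prL (p.th s r ^ 2) (fun k => un (mA p U K g F1 x0 k)))
    (fun _ _ => Or.inl rfl) (N := K) (fun k hk n m hQ x hx y hy => by
      funext l
      exact agM_A hB (hk.trans_le hK) hQ hx hy) k hk m z
  refine le_trans (le_of_eq ?_) (h.trans (le_of_eq ?_))
  · refine sum_congr rfl fun y _ => ?_
    rw [dotProduct, Fintype.sum_unique, cA_cut, sq]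
  · refine sum_congr rfl fun y _ => ?_
    rw [dotProduct, Fintype.sum_unique, sq]
    rfl

/-- **mass of the low part of the gauge** -/
theorem massA_c {n : ℕ} {e cP : ℝ} (hB : BSl n e cP F1 Q1) (he : 0 ≤ e) (hΛ : 0 ≤ p.Lm)
    (hs : 0 ≤ s) (hK : K ≤ n) {x : Pt} (hg : ∀ q : ℤ × ℤ, U.2.2 q = g q.1 q.2)
    (hg2 : A2 K U.2.2 x.2.1 x.2.2 ≤ s) {k : ℕ} (hk : k < K) (i : ℤ) {z' y' : ℤ}
    (hz : z' ∈ iv (K - k) (ix K x.2.2)) (hy : y' ∈ iv (K - k) (ix K x.2.1)) :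
    ∑ x0 ∈ iv k i, ∑ z ∈ iv k z', ∑ y ∈ iv k y', cA p s r U K g F1 Q1 x0 (k + 1) z y ^ 2 ≤
      4 * e * p.Lm * s * 8 ^ k := by
  refine le_trans ?_ (mass_kF hB he hΛ hs hK U.2.2 hg2 hk i hy hz)
  refine sum_le_sum fun x0 _ => ?_
  rw [sum_comm (s := iv k y') (t := iv k z')]
  refine sum_le_sum fun z _ => (row_cA hB hK hk x0 z y').trans (le_of_eq ?_)
  refine sum_congr rfl fun y _ => ?_
  unfold H401.mA H677.fA
  rw [hg]
  ring

theorem packA_c {n : ℕ} {e cP : ℝ} (hB : BSl n e cP F1 Q1) (hK : K ≤ n) (R S x0 : ℤ) :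
    ∑ k ∈ range K, H588G.cnt K R S k (qA p U K Q1 k (ix k x0)) ≤ (cP + 2) * 4 ^ K :=
  QD_root' (Dd_sst p.Lm U.2.2 K) hB hK R S x0

end gauge

/-! ### The third family -/

section third

variable {ι : Type} [Fintype ι] [DecidableEq ι] {p : H401.Num} {ez : ℝ} {U : Tri} {K : ℕ}
  {v : ℤ → ℤ → ι → ℝ} {F2 : ℕ → Pt → ℝ} {Q2 : ℕ → Pt → Prop}

theorem zC_1 (x0 : ℤ) : C1 p ez U K v F2 x0 0 = 0 := by
  funext z x
  unfold H408.C1 H401.mC H677.fC H677.kF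
  rw [if_pos (Or.inl rfl), zero_smul, smul_zero]
  rfl

theorem agC_1 {n : ℕ} {e cP : ℝ} (hB : BSl n e cP F2 Q2) {k : ℕ} (hk : k < n) {x0 i m : ℤ}
    (hQ : ¬ qC p U K Q2 k (ix k x0) i m) {z w : ℤ} (hz : z ∈ iv k i) (hw : w ∈ iv k m) :
    C1 p ez U K v F2 x0 (k + 1) z w = C1 p ez U K v F2 x0 k z w := by
  unfold H408.C1 H401.mC H677.fC
  rw [agree_m p.Lm U.2.1 hB hk hQ hw hz]

/-- **mass of the normalised third family** -/
theorem massC_1 {n : ℕ} {cP s : ℝ} (hB : BSl n ez cP F2 Q2) (hez : 0 < ez) (hΛ : 0 ≤ p.Lm)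
    (hs : 0 ≤ s) (hK : K ≤ n) {x : Pt}
    (hv : ∀ z ∈ iv K (ix K x.1), ∀ y ∈ iv K (ix K x.2.2), v z y ⬝ᵥ v z y ≤ U.2.1 (z, y) ^ 2)
    (hv2 : A2 K U.2.1 x.1 x.2.2 ≤ s) {k : ℕ} (hk : k < K) (i : ℤ) {z' w' : ℤ}
    (hz : z' ∈ iv (K - k) (ix K x.2.2)) (hw : w' ∈ iv (K - k) (ix K x.1)) :
    ∑ x0 ∈ iv k i, ∑ z ∈ iv k z', ∑ w ∈ iv k w',
      C1 p ez U K v F2 x0 (k + 1) z w ⬝ᵥ C1 p ez U K v F2 x0 (k + 1) z w ≤
      4 * p.Lm * s * 8 ^ k := by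
  have up : ∀ {a b t : ℤ}, a ∈ iv k b → b ∈ iv (K - k) t → a ∈ iv K t := by
    intro a b t ha hb
    rw [mem_iv] at ha hb ⊢
    have e : ix K a = ix (K - k) (ix k a) := by
      rw [ix_ix, Nat.add_sub_cancel' hk.le]
    rw [e, ha, hb]
  have h := mass_kF hB hez.le hΛ hs hK U.2.1 hv2 hk i hw hz
  have h2 : ∑ x0 ∈ iv k i, ∑ z ∈ iv k z', ∑ w ∈ iv k w',
      C1 p ez U K v F2 x0 (k + 1) z w ⬝ᵥ C1 p ez U K v F2 x0 (k + 1) z w ≤
      ez⁻¹ * ∑ x0 ∈ iv k i, ∑ w ∈ iv k w', ∑ z ∈ iv k z',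
        kF p.Lm U.2.1 K F2 (k + 1) (x0, w, z) ^ 2 * U.2.1 (w, z) ^ 2 := by
    rw [mul_sum]
    refine sum_le_sum fun x0 _ => ?_
    rw [sum_comm (s := iv k w') (t := iv k z'), mul_sum]
    refine sum_le_sum fun z hzz => ?_
    rw [mul_sum]
    refine sum_le_sum fun w hww => ?_
    unfold H408.C1 H401.mC H677.fC
    rw [smul_dotProduct, dotProduct_smul, smul_dotProduct, dotProduct_smul, smul_eq_mul,
      smul_eq_mul, smul_eq_mul, smul_eq_mul]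
    have e1 : (√ez)⁻¹ * ((√ez)⁻¹ * (kF p.Lm U.2.1 K F2 (k + 1) (x0, w, z) *
        (kF p.Lm U.2.1 K F2 (k + 1) (x0, w, z) * (v w z ⬝ᵥ v w z)))) =
        ez⁻¹ * (kF p.Lm U.2.1 K F2 (k + 1) (x0, w, z) ^ 2 * (v w z ⬝ᵥ v w z)) := by
      have e2 : (√ez)⁻¹ * (√ez)⁻¹ = ez⁻¹ := by
        rw [← mul_inv, Real.mul_self_sqrt hez.le]
      rw [← e2]
      ring
    rw [e1]
    refine mul_le_mul_of_nonneg_left (mul_le_mul_of_nonneg_left ?_ (sq_nonneg _))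
      (inv_nonneg.2 hez.le)
    exact hv w (up hww hw) z (up hzz hz)
  refine h2.trans ((mul_le_mul_of_nonneg_left h (inv_nonneg.2 hez.le)).trans (le_of_eq ?_))
  field_simp

theorem packC_1 {n : ℕ} {e cP : ℝ} (hB : BSl n e cP F2 Q2) (hK : K ≤ n) (R S x0 : ℤ) :
    ∑ k ∈ range K, H588G.cnt K R S k (qC p U K Q2 k (ix k x0)) ≤ (cP + 2) * 4 ^ K :=
  QD_root' (Dd_sst p.Lm U.2.1 K) hB hK R S x0

end third

/-! ### The leaf -/

/-- **`LCA1`.** -/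
theorem lCA1 : H408.LCA1 := by
  intro a _ _
  refine ⟨1, one_pos, fun e0 he0 _ => ⟨1, one_pos, fun k8 _ _ => ⟨1, one_pos, fun k3 _ _ δ hδ => ?_⟩⟩⟩
  refine ⟨1, δ, one_pos, hδ, fun c _ _ d hd hdδ Kt e cP L _ he hcP _ => ?_⟩
  refine ⟨6600 * (4 * e * (cP + 2)), by positivity, ?_⟩
  intro t ht ht1 n ez F1 F2 F3 _ _ _ o ho K hKn x ι _ _ s r U g u v hs hr hcls Q1 Q2 Q3 q1 q2 q3
    hez y σ hσ hy
  have hr0 : 0 < r := lt_of_lt_of_le one_pos hr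
  have htr : 0 < t / r := div_pos ht hr0
  have htr1 : t / r ≤ 1 := (div_le_one hr0).2 (ht1.trans hr)
  have htrt : t / r ≤ t := div_le_self ht.le hr
  set p : H401.Num := ⟨a, e0, k8, k3, c, d, Kt, e, cP, L, 1, t⟩ with hp
  have hLm : 0 ≤ p.Lm := (Real.rpow_pos_of_pos ht _).le
  have hLm2 : p.Lm ≤ (t / r) ^ (-δ) := by
    show t ^ (-d) ≤ (t / r) ^ (-δ)
    calc t ^ (-d) ≤ t ^ (-δ) := Real.rpow_le_rpow_of_exponent_ge ht ht1 (by linarith)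
      _ ≤ (t / r) ^ (-δ) := Real.rpow_le_rpow_of_nonpos htr htrt (by linarith)
  have he0' : 0 ≤ e := by linarith
  have hC := hcls.toCls
  have h := PCA_le (Al := p.al U K) (o := o) ho (K := K) (x := x) (sg := fun _ _ => 0)
    (be := beI p r) (l := p.lam s r) (Real.rpow_pos_of_pos htr _)
    (Real.rpow_le_one htr.le htr1 (by positivity)) (H401.Num.lam_pos ht hs hr)
    (u := u) (A := cA p s r U K g F1 Q1) (b := cb p s r U K u F3 Q3) (C := C1 p ez U K v F2)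
    (QA := qA p U K Q1) (QC := qC p U K Q2) (mu := 4 * e * p.Lm * s) (cP := cP + 2)
    (by positivity) (fun x0 => zA_c x0) (fun x0 => zC_1 x0)
    (fun k _ x0 i m hQ z hz y hy => agA_c hQ hz hy)
    (fun k hk x0 i m hQ z hz w hw => agC_1 q2 (hk.trans_le hKn) hQ hz hw)
    (fun k hk i z' hz y' hy => massA_c q1 he0' hLm hs.le hKn hC.U_g hC.U_g2 hk i hz hy)
    (fun k hk i z' hz w' hw => by
      refine (massC_1 q2 hez hLm hs.le hKn hC.v_le hC.U_v2 hk i hz hw).trans ?_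
      refine mul_le_mul_of_nonneg_right ?_ (by positivity)
      have h1 : (1 : ℝ) * (p.Lm * s) ≤ e * (p.Lm * s) :=
        mul_le_mul_of_nonneg_right he (mul_nonneg hLm hs.le)
      linarith)
    (fun x0 => packA_c q1 hKn _ _ x0) (fun x0 => packC_1 q2 hKn _ _ x0) hσ hy
  refine h.trans ?_
  have hx : 6600 * (4 * e * p.Lm * s * ((cP + 2) * 8 ^ K)) * y ^ 2 =
      (6600 * (4 * e * (cP + 2))) * p.Lm * (s * 8 ^ K) * y ^ 2 := by ring
  rw [hx]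
  refine mul_le_mul_of_nonneg_right (mul_le_mul_of_nonneg_right
    (mul_le_mul_of_nonneg_left hLm2 (by positivity)) (by positivity)) (sq_nonneg _)

end

end Vale.Agent.P141.H831
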