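import Vale.Agent.P141.H831.LbcT
import Vale.Agent.P141.H831.LcaF
import Vale.Agent.P141.H228.RowC
import Vale.Agent.P141.H408.SkelTI3

/-!
# P141, line (A), (TI): the leaf `LBC1g`

* `sum_GT` : the traces of the gap matrices over the root;
* `num_x` : exponents; `lBC1g : H408.LBC1g`.
-/

namespace Vale.Agent.P141.H831.Lbc

open Finset Matrix
open Vale.Agent.P075 (Ix val)
open Vale.Agent.P141.PL (Pt iv hs ix mem_iv ix_ix cx)
open Vale.Agent.P141.PL.H315 (Tri A2 avg)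
open Vale.Agent.P141.H48 (US ES BSl sst)
open Vale.Agent.P141.H305 (Cls ClsM kapM)
open Vale.Agent.P141.H401 (FibU FibP mA mb mC qA qB qC cA cb)
open Vale.Agent.P141.H576 (QD Dd_sst QD_root QD_root')
open Vale.Agent.P141.H677 (KT GT)
open Vale.Agent.P141.H677.Sk (lam1)
open Vale.Agent.P141.H408 (PairQ PairU QBC1 beI tauI C1)
open Vale.Agent.P141.H228.Gauge (PBCg)

noncomputable section

open scoped Classical

/-- the traces over the root -/
theorem sum_GT {ι : Type} [Fintype ι] {K : ℕ} {x : Pt} {s r P : ℝ} {U : Tri} {g : ℤ → ℤ → ℝ}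
    {u v : ℤ → ℤ → ι → ℝ} (C : Cls K x s r P U g u v) :
    ∑ w ∈ iv K (ix K x.1), (GT u w K (ix K x.2.1)).trace ≤ 2 ^ K * s := by
  have h1 : ∑ w ∈ iv K (ix K x.1), ∑ y ∈ iv K (ix K x.2.1), U.1 (w, y) ^ 2 ≤
      2 ^ K * 2 ^ K * s := by
    have h := C.U_u2
    have h2 : A2 K U.1 x.1 x.2.1 =
        ((2 : ℝ) ^ K * 2 ^ K)⁻¹ * ∑ w ∈ iv K (ix K x.1), ∑ y ∈ iv K (ix K x.2.1),
          U.1 (w, y) ^ 2 := by
      unfold PL.H315.A2 PL.H315.avg
      rw [H769.iv_pt, H769.iv_pt, card_product, PL.card_iv, PL.card_iv, sum_product]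
      push_cast
      rfl
    rw [h2, inv_mul_le_iff₀ (by positivity)] at h
    exact h
  have h3 : ∑ w ∈ iv K (ix K x.1), (GT u w K (ix K x.2.1)).trace ≤
      ((2 : ℝ) ^ K)⁻¹ * ∑ w ∈ iv K (ix K x.1), ∑ y ∈ iv K (ix K x.2.1), U.1 (w, y) ^ 2 := by
    rw [mul_sum]
    refine sum_le_sum fun w hw => ?_
    rw [H677.GT_trace]
    exact mul_le_mul_of_nonneg_left (sum_le_sum fun y hy => C.u_le w hw y hy) (by positivity)
  refine h3.trans ((mul_le_mul_of_nonneg_left h1 (by positivity)).trans (le_of_eq ?_))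
  field_simp

/-- **Exponents**: `z = (t / r)⁻¹`. -/
theorem num_x {t r s e0 : ℝ} (ht : 0 < t) (ht1 : t ≤ 1) (hr : 1 ≤ r) (hs : 0 < s) (he0 : 0 ≤ e0)
    (_he1 : e0 ≤ 1) :
    t ^ (-8 : ℝ) * √s * r ^ (8 : ℝ) * (t ^ (2 - e0) * √s * r ^ e0)⁻¹ ≤ ((t / r)⁻¹) ^ 10 := by
  have hr0 : 0 < r := by linarith
  have hq : 0 < √s := Real.sqrt_pos.2 hs
  have e1 : t ^ (-8 : ℝ) * √s * r ^ (8 : ℝ) * (t ^ (2 - e0) * √s * r ^ e0)⁻¹ =
      (t ^ (-8 : ℝ) * (t ^ (2 - e0))⁻¹) * (r ^ (8 : ℝ) * (r ^ e0)⁻¹) := by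
    rw [mul_inv, mul_inv]
    field_simp
  have e2 : t ^ (-8 : ℝ) * (t ^ (2 - e0))⁻¹ ≤ t ^ (-10 : ℝ) := by
    rw [← Real.rpow_neg ht.le, ← Real.rpow_add ht]
    exact Real.rpow_le_rpow_of_exponent_ge ht ht1 (by linarith)
  have e3 : r ^ (8 : ℝ) * (r ^ e0)⁻¹ ≤ r ^ (10 : ℝ) := by
    rw [← Real.rpow_neg hr0.le, ← Real.rpow_add hr0]
    exact Real.rpow_le_rpow_of_exponent_le hr (by linarith)
  have e4 : t ^ (-10 : ℝ) * r ^ (10 : ℝ) = ((t / r)⁻¹) ^ 10 := by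
    rw [inv_div, div_pow, Real.rpow_neg ht.le]
    have a1 : t ^ (10 : ℝ) = t ^ 10 := by exact_mod_cast Real.rpow_natCast t 10
    have a2 : r ^ (10 : ℝ) = r ^ 10 := by exact_mod_cast Real.rpow_natCast r 10
    rw [a1, a2]
    field_simp
  rw [e1, ← e4]
  exact mul_le_mul e2 e3 (by positivity) (by positivity)

/-- **`LBC1g`.** -/
theorem lBC1g : H408.LBC1g := by
  intro a _ _
  refine ⟨1, one_pos, fun e0 he0 he01 => ⟨1, one_pos, fun k8 _ _ => ⟨1, one_pos,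
    fun k3 _ _ δ hδ => ?_⟩⟩⟩
  refine ⟨1, 1, one_pos, one_pos, fun c _ _ d hd hd1 Kt e cP L _ he hcP _ => ?_⟩
  refine ⟨18 * 10 ^ 4 * (12 * e * (cP + 2) + 90134 * e), by positivity, ?_⟩
  intro t ht ht1 n ez F1 F2 F3 _ _ _ o ho K hKn x ι _ _ s r U g u v hs hr hcls Q1 Q2 Q3 q1 q2 q3
    hez hfU hfP h hh hhτ
  have hr0 : 0 < r := lt_of_lt_of_le one_pos hr
  have htr : 0 < t / r := div_pos ht hr0
  have htr1 : t / r ≤ 1 := (div_le_one hr0).2 (ht1.trans hr)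
  have htrt : t / r ≤ t := div_le_self ht.le hr
  set p : H401.Num := ⟨a, e0, k8, k3, c, d, Kt, e, cP, L, 1, t⟩ with hp
  have hLm : 0 ≤ p.Lm := (Real.rpow_pos_of_pos ht _).le
  obtain ⟨z, hz⟩ : ∃ z : ℝ, z = (t / r)⁻¹ := ⟨_, rfl⟩
  have hz1 : 1 ≤ z := by rw [hz]; exact (one_le_inv₀ htr).2 htr1
  have hLm2 : p.Lm ≤ z := by
    show t ^ (-d) ≤ z
    calc t ^ (-d) ≤ t ^ (-1 : ℝ) := Real.rpow_le_rpow_of_exponent_ge ht ht1 (by linarith)
      _ ≤ (t / r) ^ (-1 : ℝ) := Real.rpow_le_rpow_of_nonpos htr htrt (by norm_num)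
      _ = z := by rw [Real.rpow_neg_one, hz]
  have hbe : 0 < beI p r := Real.rpow_pos_of_pos htr _
  have hbe2 : (beI p r)⁻¹ ≤ z := by
    show ((t / r) ^ (e0 / 2))⁻¹ ≤ z
    rw [hz]
    refine inv_anti₀ htr ?_
    calc t / r = (t / r) ^ (1 : ℝ) := (Real.rpow_one _).symm
      _ ≤ (t / r) ^ (e0 / 2) := Real.rpow_le_rpow_of_exponent_ge htr htr1 (by linarith)
  have he0' : 0 ≤ e := by linarith
  have hC := hcls.toCls
  have hl := H401.Num.lam_pos (p := p) ht hs hr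
  have hl1 : 0 < lam1 p s r := H401.lam1_pos ht hs hr
  have hLe : p.Lm * s ≤ e * (p.Lm * s) := by
    have := mul_le_mul_of_nonneg_right he (mul_nonneg hLm hs.le)
    rwa [one_mul] at this
  have h1 := PBCg_le (Al := p.al U K) (o := o) ho (K := K) (x := x) (sg := fun _ _ => 0)
    (be := beI p r) (l := p.lam s r) hbe (Real.rpow_le_one htr.le htr1 (by positivity)) hl
    (u := u) (A := cA p s r U K g F1 Q1) (b := cb p s r U K u F3 Q3) (C := C1 p ez U K v F2)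
    (QB := qB p U K Q3) (QC := qC p U K Q2) (mu := 4 * e * p.Lm * s) (cP := cP + 2)
    (lam := e * lam1 p s r) (by positivity) (by positivity) (fun x0 => rfl)
    (fun x0 => H831.zC_1 x0)
    (fun k hk x0 i m hQ w hw y hy =>
      H80.lowG_off (Q := fun k n m => qB p U K Q3 k (ix k x0) n m) hQ hw hy)
    (fun k hk x0 i m hQ z hz w hw => H831.agC_1 q2 (hk.trans_le hKn) hQ hz hw)
    (fun k hk i w' hw y' hy => H652.mass_cb q3 he0' ht hs.le hKn hC hk i hw hy)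
    (fun k hk i z' hz w' hw => by
      refine (H831.massC_1 q2 hez hLm hs.le hKn hC.v_le hC.U_v2 hk i hz hw).trans ?_
      refine mul_le_mul_of_nonneg_right ?_ (by positivity)
      linarith)
    (fun x0 => QD_root (Dd_sst _ _ _) q3 hKn _ _ x0)
    (fun x0 => H831.packC_1 q2 hKn _ _ x0)
    (fun k hk q m hm w hw => H228.RowC.row_num_cb q3 he0' hKn ht hs hr hfU hk hw hm q)
    (fun k hk q m hm w hw => by
      refine (H228.RowC.row_num_C1 q2 hez hKn ht hs hr hfP hk hw hm q).trans ?_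
      refine mul_le_mul_of_nonneg_right ?_ (by positivity)
      have := mul_le_mul_of_nonneg_right he hl1.le
      linarith) hh
  have hG := sum_GT hC
  have hx := num_x (s := s) (e0 := e0) ht ht1 hr hs he0.le he01
  rw [← hz] at hx
  have hx' : lam1 p s r * (p.lam s r)⁻¹ ≤ z ^ 10 := hx
  obtain ⟨V, hV⟩ : ∃ V : ℝ, V = s * 8 ^ K := ⟨_, rfl⟩
  have hV0 : 0 ≤ V := by rw [hV]; positivity
  have p2 : 11 * (e * lam1 p s r) * (4 ^ K * (8194 *
        ((p.lam s r)⁻¹ * ∑ w ∈ iv K (ix K x.1), (GT u w K (ix K x.2.1)).trace))) ≤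
      90134 * e * z ^ 10 * V := by
    have b1 : 0 ≤ 11 * (e * lam1 p s r) * (4 ^ K * (8194 * (p.lam s r)⁻¹)) := by positivity
    have b2 := mul_le_mul_of_nonneg_left hG b1
    have b3 : (0 : ℝ) ≤ 90134 * e * V := by positivity
    have b4 := mul_le_mul_of_nonneg_left hx' b3
    have h8 : (8 : ℝ) ^ K = 4 ^ K * 2 ^ K := by rw [← mul_pow]; norm_num
    calc _ = 11 * (e * lam1 p s r) * (4 ^ K * (8194 * (p.lam s r)⁻¹)) *
          ∑ w ∈ iv K (ix K x.1), (GT u w K (ix K x.2.1)).trace := by ring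
      _ ≤ 11 * (e * lam1 p s r) * (4 ^ K * (8194 * (p.lam s r)⁻¹)) * (2 ^ K * s) := b2
      _ = 90134 * e * V * (lam1 p s r * (p.lam s r)⁻¹) := by rw [hV, h8]; ring
      _ ≤ 90134 * e * V * z ^ 10 := b4
      _ = _ := by ring
  have p1 : 3 * (4 * e * p.Lm * s * ((cP + 2) * 8 ^ K)) ≤ 12 * e * (cP + 2) * z ^ 10 * V := by
    have b1 : p.Lm ≤ z ^ 10 := hLm2.trans (by
      calc z = z ^ 1 := (pow_one z).symm
        _ ≤ z ^ 10 := pow_le_pow_right₀ hz1 (by norm_num))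
    have b2 : 0 ≤ 12 * e * (cP + 2) * V := by positivity
    have b3 := mul_le_mul_of_nonneg_left b1 b2
    calc _ = 12 * e * (cP + 2) * V * p.Lm := by rw [hV]; ring
      _ ≤ _ := b3
      _ = _ := by ring
  have hz0 : 0 < z := by linarith
  have p3 : PBCg (beI p r) h h ι (p.al U K) o K (cx K x) (fun _ _ => 0) (p.lam s r) u
      (cA p s r U K g F1 Q1) (cb p s r U K u F3 Q3) (C1 p ez U K v F2) ≤
      18 * 10 ^ 4 * (12 * e * (cP + 2) + 90134 * e) * V * (z ^ 12 * h ^ 2) := by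
    refine h1.trans ?_
    have b1 : 18 * 10 ^ 4 * (beI p r)⁻¹ * (3 * (4 * e * p.Lm * s * ((cP + 2) * 8 ^ K)) +
        11 * (e * lam1 p s r) * (4 ^ K * (8194 * ((p.lam s r)⁻¹ *
          ∑ w ∈ iv K (ix K x.1), (GT u w K (ix K x.2.1)).trace)))) ≤
        18 * 10 ^ 4 * z * (12 * e * (cP + 2) * z ^ 10 * V + 90134 * e * z ^ 10 * V) := by
      refine mul_le_mul (mul_le_mul_of_nonneg_left hbe2 (by norm_num)) (add_le_add p1 p2) ?_
        (by positivity)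
      refine add_nonneg (by positivity) (mul_nonneg (by positivity) (mul_nonneg (by positivity)
        (mul_nonneg (by norm_num) (mul_nonneg (by positivity) (sum_nonneg fun w _ => ?_)))))
      exact (H677.GT_psd u w K _).trace_nonneg
    have b2 : 18 * 10 ^ 4 * z * (12 * e * (cP + 2) * z ^ 10 * V + 90134 * e * z ^ 10 * V) =
        18 * 10 ^ 4 * (12 * e * (cP + 2) + 90134 * e) * V * z ^ 11 := by ring
    have b3 : z ^ 11 ≤ z ^ 12 := pow_le_pow_right₀ hz1 (by norm_num)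
    have b4 : 0 ≤ 18 * 10 ^ 4 * (12 * e * (cP + 2) + 90134 * e) * V := by positivity
    have b5 := mul_le_mul_of_nonneg_left b3 b4
    have b6 := mul_le_mul_of_nonneg_right ((b1.trans (le_of_eq b2)).trans b5) (sq_nonneg h)
    refine b6.trans (le_of_eq (by ring))
  refine p3.trans ?_
  have hzz : z ^ 12 = (t / r) ^ (-12 : ℝ) := by
    rw [hz, Real.rpow_neg htr.le, inv_pow]
    congr 1
    exact_mod_cast (Real.rpow_natCast (t / r) 12).symm
  have hτ : 1 ≤ (tauI p s r / h) ^ (1 / 4 : ℝ) :=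
    Real.one_le_rpow ((one_le_div hh).2 hhτ) (by norm_num)
  have hδ1 : 1 ≤ (t / r) ^ (-δ) := Real.one_le_rpow_of_pos_of_le_one_of_nonpos htr htr1
    (by linarith)
  show _ ≤ 18 * 10 ^ 4 * (12 * e * (cP + 2) + 90134 * e) * (t / r) ^ (-δ) * (s * 8 ^ K) *
    ((t / r) ^ (-12 : ℝ) * (h ^ 2 * (tauI p s r / h) ^ (1 / 4 : ℝ)))
  rw [← hzz, ← hV]
  have c1 : 0 ≤ 18 * 10 ^ 4 * (12 * e * (cP + 2) + 90134 * e) := by positivity
  have c2 : 18 * 10 ^ 4 * (12 * e * (cP + 2) + 90134 * e) * V ≤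
      18 * 10 ^ 4 * (12 * e * (cP + 2) + 90134 * e) * (t / r) ^ (-δ) * V := by
    have := mul_le_mul_of_nonneg_left hδ1 (mul_nonneg c1 hV0)
    linarith
  have c3 : z ^ 12 * h ^ 2 ≤ z ^ 12 * (h ^ 2 * (tauI p s r / h) ^ (1 / 4 : ℝ)) :=
    mul_le_mul_of_nonneg_left (le_mul_of_one_le_right (sq_nonneg h) hτ) (by positivity)
  exact mul_le_mul c2 c3 (by positivity) (by positivity)

end

end Vale.Agent.P141.H831.Lbc
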