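import Vale.Agent.P141.H609.RPW
import Vale.Agent.P141.H228.GaugeN
import Vale.Agent.P141.H178.Dict
import Vale.Agent.P141.H652.PairAB

/-!
# P141, line (A), (TI): the pair `(Bg, Cg)` at the hub `x1`, crude, one `x₀`

* `lab_rBC` : the node sum of `rBC (Bg b) (Cs C)` is `RP` of the label letters of `H609.RPW`;
* `pwr_lab` : the power of a labelled path;
* `lbc_x0` : the crude bound at one `x₀`, row traces `wf`, `wh`.
-/

namespace Vale.Agent.P141.H831.Lbc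

open Finset Matrix
open Vale.Agent.P075 (Ix val)
open Vale.Agent.P141.PL (Pt iv hs ix mem_iv ix_ix)
open Vale.Agent.P141.PL.H588 (hd Pl)
open Vale.Agent.P141.PL.H804 (bx3 bl M2)
open Vale.Agent.P141.H958 (lbs encR pwr)
open Vale.Agent.P141.H338 (cu sum_cu_cu)
open Vale.Agent.P141.H609 (RP)
open Vale.Agent.P141.H609.RPW (um eb ec lo_RP_labW)
open Vale.Agent.P141.H747 (sL gB gC sum_sL)
open Vale.Agent.P141.H433 (stk Ct wf wh)
open Vale.Agent.P141.H103 (GW)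
open Vale.Agent.P141.H178 (nB nC M2_x)
open Vale.Agent.P141.H408 (rBC)
open Vale.Agent.P141.H420 (Tr)
open Vale.Agent.P141.H652 (Th Th_psd Th_le_two)
open Vale.Agent.P141.H228.Gauge (Bg Cg Cs rBC_g_stk half_psd)

noncomputable section

open scoped Classical

/-! ### Labels -/

section lab

variable {κ : Type*} [Fintype κ] [DecidableEq κ] {L : ℕ} {e : κ ⊕ κ → ℤ}

omit [DecidableEq κ] in
theorem cu_swap (f : κ ⊕ κ → ℝ) (l : ℤ) :
    cu (fun i => e i.swap) f l = cu e (fun i => f i.swap) l := by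
  unfold H338.cu
  exact Fintype.sum_equiv (Equiv.sumComm κ κ) _ _ fun i => by
    rw [Equiv.sumComm_apply]
    beta_reduce
    rw [Sum.swap_swap]

/-- the first slot, halves exchanged -/
def bS (b : ℕ → ℤ → ℤ → κ → ℝ) (k : ℕ) (x y : ℤ) : κ ⊕ κ → ℝ :=
  Sum.elim (0 : κ → ℝ) (√2 • b k x y)

omit [Fintype κ] [DecidableEq κ] in
theorem Bg_swap (b : ℕ → ℤ → ℤ → κ → ℝ) (k : ℕ) (x y : ℤ) :
    (fun i : κ ⊕ κ => Bg (b k) x y i.swap) = bS b k x y := by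
  funext i
  rcases i with i | i <;> rfl

/-- the multiplier `Th / 2` -/
def VT (l : ℝ) (N : ℕ) (S : ℤ) (Kq : ℤ → ℕ → ℤ → Matrix κ κ ℝ) (c x0 : ℤ) :
    ℕ → ℤ → ℤ → Matrix κ κ ℝ := fun k x j => (1 / 2 : ℝ) • Th l N S (Kq x) c x0 x k j

theorem Cs_swap (be l : ℝ) (N : ℕ) (S : ℤ) (Kq : ℤ → ℕ → ℤ → Matrix κ κ ℝ) (c x0 : ℤ)
    (C : ℕ → ℤ → ℤ → κ → ℝ) (k : ℕ) (z x : ℤ) :
    (fun i : κ ⊕ κ => Cs be l N S Kq c x0 (C k) k z x i.swap) =
      stk (√be) (√2) (VT l N S Kq c x0) C k z x := by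
  have h2 : √(2 : ℝ) * (1 / 2) = (√2)⁻¹ := by
    have h0 : √(2 : ℝ) * √2 = 2 := Real.mul_self_sqrt (by norm_num)
    have h1 : √(2 : ℝ) ≠ 0 := (Real.sqrt_pos.2 (by norm_num)).ne'
    field_simp
    nlinarith
  funext i
  unfold H228.Gauge.Cs H433.stk VT
  rcases i with i | i
  · rfl
  · show (√2)⁻¹ * (Th l N S (Kq x) c x0 x k (ix k z) *ᵥ C k z x) i =
      √2 * (((1 / 2 : ℝ) • Th l N S (Kq x) c x0 x k (ix k z)) *ᵥ C k z x) i
    rw [smul_mulVec, Pi.smul_apply, smul_eq_mul, ← mul_assoc, h2]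

theorem VT_ct {l : ℝ} {N : ℕ} (S : ℤ) {G Kq : ℤ → ℕ → ℤ → Matrix κ κ ℝ}
    (h : ∀ x, Tr l N (G x) (Kq x)) (c x0 : ℤ) (k : ℕ) (x j : ℤ) :
    Ct (VT l N S Kq c x0 k x j) := by
  have p0 := Th_psd (M := S) (h x) c x0 x k j
  have p2 := Th_le_two (M := S) (h x) c x0 x k j
  have hT : (Th l N S (Kq x) c x0 x k j)ᵀ = Th l N S (Kq x) c x0 x k j := p0.isHermitian
  have hV : (VT l N S Kq c x0 k x j)ᵀ = VT l N S Kq c x0 k x j := by
    unfold VT
    rw [transpose_smul, hT]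
  have h3 := (half_psd p0 p2).smul (by norm_num : (0 : ℝ) ≤ 1 / 2)
  have h4 := p2.smul (by norm_num : (0 : ℝ) ≤ 1 / 2)
  have h5 := h4.add h3
  have e : (1 / 2 : ℝ) • ((2 : ℝ) • (1 : Matrix κ κ ℝ) - Th l N S (Kq x) c x0 x k j) +
      (1 / 2 : ℝ) • (Th l N S (Kq x) c x0 x k j -
        (1 / 2 : ℝ) • (Th l N S (Kq x) c x0 x k j * Th l N S (Kq x) c x0 x k j)) =
      1 - VT l N S Kq c x0 k x j * VT l N S Kq c x0 k x j := by
    unfold VT
    rw [Matrix.smul_mul, Matrix.mul_smul]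
    module
  rw [e] at h5
  constructor
  · rw [hV]; exact h5
  · rw [hV]; exact h5

/-- **The node sum as `RP` in label letters.** -/
theorem lab_rBC (he : Function.Injective e) (hm : ∀ i, e i ∈ lbs L) (be l : ℝ) (N : ℕ) (S : ℤ)
    (Kq : ℤ → ℕ → ℤ → Matrix κ κ ℝ) (c x0 : ℤ) (K : ℕ) (s : ℕ → Finset Pt)
    (b C : ℕ → ℤ → ℤ → κ → ℝ) (x y : ℝ) :
    RP (K + L) (sL L s) x y (fun k m => bl k (gB L e (bS b) k) m.2.1 m.2.2)
        (fun k m => (bl k (gC L e (stk (√be) (√2) (VT l N S Kq c x0) C) k) m.1 m.2.2)ᵀ) =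
      4 ^ L * ∑ k ∈ Icc 1 K, ∑ m ∈ s k,
        rBC (Bg (b k)) (Cs be l N S Kq c x0 (C k) k) k m x y := by
  have he' : Function.Injective fun i : κ ⊕ κ => e i.swap := by
    intro i j hij
    have := he hij
    rw [← Sum.swap_swap i, this, Sum.swap_swap]
  have hm' : ∀ i : κ ⊕ κ, e i.swap ∈ lbs L := fun i => hm _
  unfold H609.RP
  rw [sum_sL L K s fun k m => x ^ 2 * y ^ 2 * (4 ^ k * M2 (hd k) ((x ^ 2)⁻¹ * (4 ^ k)⁻¹)
    ((y ^ 2)⁻¹ * (4 ^ k)⁻¹) (bl k (gB L e (bS b) k) m.2.1 m.2.2)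
    ((bl k (gC L e (stk (√be) (√2) (VT l N S Kq c x0) C) k) m.1 m.2.2)ᵀ)), mul_sum]
  refine sum_congr rfl fun k hk => ?_
  rw [mul_sum]
  refine sum_congr rfl fun m _ => ?_
  have e1 : nB L (fun i : κ ⊕ κ => e i.swap) (Bg (b k)) (k + L) m =
      bl (k + L) (gB L e (bS b) (k + L)) m.2.1 m.2.2 := by
    unfold H178.nB H747.gB
    rw [Nat.add_sub_cancel]
    have e3 : (fun (lab y x : ℤ) => cu (fun i : κ ⊕ κ => e i.swap) (Bg (b k) x y) lab) =
        fun lab y x => cu e (bS b k x y) lab := by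
      funext lab y x
      rw [cu_swap, Bg_swap]
    rw [e3]
  have e2 : nC L (fun i : κ ⊕ κ => e i.swap) (Cs be l N S Kq c x0 (C k) k) (k + L) m =
      (bl (k + L) (gC L e (stk (√be) (√2) (VT l N S Kq c x0) C) (k + L)) m.1 m.2.2)ᵀ := by
    unfold H178.nC H747.gC
    rw [Nat.add_sub_cancel]
    have e3 : (fun (lab z x : ℤ) => cu (fun i : κ ⊕ κ => e i.swap)
        (Cs be l N S Kq c x0 (C k) k z x) lab) =
        fun lab z x => cu e (stk (√be) (√2) (VT l N S Kq c x0) C k z x) lab := by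
      funext lab z x
      rw [cu_swap, Cs_swap]
    rw [e3]
  rw [← e1, ← e2]
  exact M2_x he' hm' (mem_Icc.1 hk).1 _ _ m x y

end lab

/-! ### Powers -/

section power

variable {κ : Type*} [Fintype κ] [DecidableEq κ] {L : ℕ} {e : κ → ℤ}

omit [DecidableEq κ] in
/-- the power of a labelled path -/
theorem pwr_lab (he : Function.Injective e) (hm : ∀ i, e i ∈ lbs L) (N : ℕ) (R S : ℤ)
    (Q : ℕ → ℤ → ℤ → Prop) (f : ℕ → ℤ → ℤ → κ → ℝ) :
    ∑ l ∈ lbs L, pwr N R S Q (fun k y x => cu e (f k y x) l) =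
      ∑ k ∈ range N, ∑ m ∈ iv (N - k) S, ∑ n ∈ iv (N - k) R,
        if Q k n m then ∑ x ∈ iv k m, ∑ y ∈ iv k n, f (k + 1) y x ⬝ᵥ f (k + 1) y x else 0 := by
  unfold H958.pwr H736.sqQ
  rw [sum_comm]
  refine sum_congr rfl fun k _ => ?_
  rw [sum_comm]
  refine sum_congr rfl fun m _ => ?_
  rw [sum_comm]
  refine sum_congr rfl fun n _ => ?_
  split_ifs
  · unfold H736.sqb
    rw [sum_comm]
    refine sum_congr rfl fun x _ => ?_
    rw [sum_comm]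
    refine sum_congr rfl fun y _ => ?_
    have h := sum_cu_cu he hm (f (k + 1) y x) (f (k + 1) y x)
    rw [dotProduct, ← h]
    exact sum_congr rfl fun l _ => sq _
  · exact sum_const_zero

end power

/-! ### One `x₀` -/

section one

variable {κ : Type*} [Fintype κ] [DecidableEq κ] {L : ℕ} {e : κ ⊕ κ → ℤ}

omit [DecidableEq κ] in
theorem bS_sq (b : ℕ → ℤ → ℤ → κ → ℝ) (k : ℕ) (x y : ℤ) :
    bS b k x y ⬝ᵥ bS b k x y = 2 * (b k x y ⬝ᵥ b k x y) := by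
  unfold bS
  rw [sumElim_dotProduct_sumElim, zero_dotProduct, zero_add, smul_dotProduct, dotProduct_smul,
    smul_eq_mul, smul_eq_mul, ← mul_assoc, Real.mul_self_sqrt (by norm_num)]

omit [DecidableEq κ] in
theorem C0_sq (f : κ → ℝ) : Sum.elim f (0 : κ → ℝ) ⬝ᵥ Sum.elim f (0 : κ → ℝ) = f ⬝ᵥ f := by
  rw [sumElim_dotProduct_sumElim, zero_dotProduct, add_zero]

/-- the row cost at one `x₀` -/
def WW (L : ℕ) (e : κ ⊕ κ → ℤ) (ε K : ℝ) (V : ℕ → ℤ → ℤ → Matrix κ κ ℝ) (N : ℕ) (R : Pt)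
    (c : ℕ → ℤ) (b C : ℕ → ℤ → ℤ → κ → ℝ) : ℝ :=
  ∑ k ∈ range N, GW N R.2.1 R.2.2 R.1 (k + 1) (c (k + 1))
      (wf (um L e ε K V) (eb L e (bS b) (L + (k + 1))) (ec L e C (L + (k + 1))) k) +
    ∑ k ∈ range N, wh (um L e ε K V) (ec L e C (L + (k + 1))) N R.2.2 R.1 k

/-- **The pair `(Bg, Cg)` at the hub `x1`, crude, one `x₀`.** -/
theorem lbc_x0 (he : Function.Injective e) (hm : ∀ i, e i ∈ lbs L) {N : ℕ} {R : Pt} {c : ℕ → ℤ}
    (hc : Pl c) {s : ℕ → Finset Pt} (hs : ∀ k ∈ Icc 1 N, s k ⊆ bx3 N R k (c k)) {be l : ℝ}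
    (hbe : 0 < be) (hbe1 : be ≤ 1) {N' : ℕ} (S : ℤ) {G Kq : ℤ → ℕ → ℤ → Matrix κ κ ℝ}
    (hT : ∀ x, Tr l N' (G x) (Kq x)) (c' x0 : ℤ) {b C : ℕ → ℤ → ℤ → κ → ℝ}
    {QB QC : ℕ → ℤ → ℤ → Prop} (b0 : b 0 = 0) (C0 : C 0 = 0)
    (agB : ∀ k < N, ∀ n ∈ iv (N - k) R.2.1, ∀ m ∈ iv (N - k) R.2.2, ¬ QB k n m →
      ∀ y ∈ iv k n, ∀ x ∈ iv k m, b (k + 1) x y = b k x y)
    (agC : ∀ k < N, ∀ n ∈ iv (N - k) R.1, ∀ m ∈ iv (N - k) R.2.2, ¬ QC k n m →
      ∀ z ∈ iv k n, ∀ x ∈ iv k m, C (k + 1) z x = C k z x) {DB DC : ℝ}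
    (oB : ∑ k ∈ range N, ∑ m ∈ iv (N - k) R.2.2, ∑ n ∈ iv (N - k) R.2.1,
      (if QB k n m then ∑ x ∈ iv k m, ∑ y ∈ iv k n, b (k + 1) x y ⬝ᵥ b (k + 1) x y else 0) ≤ DB)
    (oC : ∑ k ∈ range N, ∑ m ∈ iv (N - k) R.2.2, ∑ n ∈ iv (N - k) R.1,
      (if QC k n m then ∑ x ∈ iv k m, ∑ z ∈ iv k n, C (k + 1) z x ⬝ᵥ C (k + 1) z x else 0) ≤ DC)
    {h : ℝ} (hh : 0 < h) :
    ∑ k ∈ Icc 1 N, ∑ m ∈ s k, rBC (Bg (b k)) (Cg be l N' S Kq c' x0 (C k) k) k m h h ≤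
      6 * 10 ^ 4 * be⁻¹ * (2 * DB + DC +
        WW L e (√be) (√2) (VT l N' S Kq c' x0) N R c b C) * h ^ 2 := by
  have hε : 0 < √be := Real.sqrt_pos.2 hbe
  have hε1 : √be ≤ 1 := by
    rw [Real.sqrt_le_one]
    exact hbe1
  have cz : ∀ l, cu e (0 : κ ⊕ κ → ℝ) l = 0 := fun l => by
    unfold H338.cu
    exact sum_eq_zero fun i _ => by split_ifs <;> rfl
  have bz : bS b 0 = 0 := by
    funext x y i
    unfold bS
    rw [b0]
    rcases i with i | i <;> simp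
  have h1 := lo_RP_labW (L := L) (N := N) (R := R) (c := c) (s := s) (b := bS b) (C := C)
    (V := VT l N' S Kq c' x0) (QB := QB) (QC := QC) he hm hc hs
    (fun k x n => VT_ct S hT c' x0 k x n) hh hε hε1 (Real.sqrt_nonneg 2) bz C0
    (fun l _ k hk n hn m hm' hq y hy x hx => by
      show cu e (bS b (k + 1) x y) l = cu e (bS b k x y) l
      unfold bS
      rw [agB k hk n hn m hm' hq y hy x hx])
    (fun l _ k hk n hn m hm' hq z hz x hx => by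
      show cu e (Sum.elim (C (k + 1) z x) (0 : κ → ℝ)) l = cu e (Sum.elim (C k z x) (0 : κ → ℝ)) l
      rw [agC k hk n hn m hm' hq z hz x hx])
    (DB := 2 * DB) (DC := DC)
    (by
      rw [pwr_lab he hm N R.2.1 R.2.2 QB fun k y x => bS b k x y]
      refine le_trans (le_of_eq ?_) (mul_le_mul_of_nonneg_left oB (by norm_num : (0:ℝ) ≤ 2))
      rw [mul_sum]
      refine sum_congr rfl fun k _ => ?_
      rw [mul_sum]
      refine sum_congr rfl fun m _ => ?_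
      rw [mul_sum]
      refine sum_congr rfl fun n _ => ?_
      split_ifs
      · rw [mul_sum]
        refine sum_congr rfl fun x _ => ?_
        rw [mul_sum]
        exact sum_congr rfl fun y _ => bS_sq b (k + 1) x y
      · rw [mul_zero])
    (by
      rw [pwr_lab he hm N R.1 R.2.2 QC fun k z x => Sum.elim (C k z x) (0 : κ → ℝ)]
      refine le_trans (le_of_eq ?_) oC
      refine sum_congr rfl fun k _ => sum_congr rfl fun m _ => sum_congr rfl fun n _ => ?_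
      split_ifs
      · exact sum_congr rfl fun x _ => sum_congr rfl fun z _ => C0_sq _
      · rfl)
  rw [lab_rBC he hm be l N' S Kq c' x0 N s b C h h] at h1
  have h4 : (0 : ℝ) < 4 ^ L := by positivity
  have h2 : ∑ k ∈ Icc 1 N, ∑ m ∈ s k, rBC (Bg (b k)) (Cs be l N' S Kq c' x0 (C k) k) k m h h ≤
      10 ^ 4 * ((√be + √2) ^ 2 * (√be ^ 2)⁻¹) * (2 * DB + DC +
        WW L e (√be) (√2) (VT l N' S Kq c' x0) N R c b C) * h ^ 2 := by
    refine le_of_mul_le_mul_left (h1.trans (le_of_eq ?_)) h4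
    unfold WW
    ring
  have h3 : ∑ k ∈ Icc 1 N, ∑ m ∈ s k, rBC (Bg (b k)) (Cg be l N' S Kq c' x0 (C k) k) k m h h ≤
      ∑ k ∈ Icc 1 N, ∑ m ∈ s k, rBC (Bg (b k)) (Cs be l N' S Kq c' x0 (C k) k) k m h h :=
    sum_le_sum fun k _ => sum_le_sum fun m _ => rBC_g_stk hbe hT c' x0 (b k) (C k) k m hh hh
  refine h3.trans (h2.trans ?_)
  have hW : 0 ≤ 2 * DB + DC + WW L e (√be) (√2) (VT l N' S Kq c' x0) N R c b C := by
    have a1 : 0 ≤ DB := le_trans (sum_nonneg fun k _ => sum_nonneg fun m _ =>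
      sum_nonneg fun n _ => by
        split_ifs
        · exact sum_nonneg fun _ _ => sum_nonneg fun _ _ => H922.dot_self_nonneg _
        · exact le_rfl) oB
    have a2 : 0 ≤ DC := le_trans (sum_nonneg fun k _ => sum_nonneg fun m _ =>
      sum_nonneg fun n _ => by
        split_ifs
        · exact sum_nonneg fun _ _ => sum_nonneg fun _ _ => H922.dot_self_nonneg _
        · exact le_rfl) oC
    have a3 : 0 ≤ WW L e (√be) (√2) (VT l N' S Kq c' x0) N R c b C := by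
      unfold WW
      refine add_nonneg (sum_nonneg fun k _ => ?_) (sum_nonneg fun k _ => H433.wh_nonneg ..)
      unfold H103.GW
      refine mul_nonneg (by positivity) (sum_nonneg fun _ _ => sum_nonneg fun _ _ => ?_)
      split_ifs
      · exact H433.wf_nonneg ..
      · exact le_rfl
    linarith
  have hk : (√be + √2) ^ 2 * (√be ^ 2)⁻¹ ≤ 6 * be⁻¹ := by
    rw [Real.sq_sqrt hbe.le]
    refine mul_le_mul_of_nonneg_right ?_ (inv_nonneg.2 hbe.le)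
    have h5 : √(2 : ℝ) ≤ 1.4143 := by
      rw [Real.sqrt_le_left (by norm_num)]
      norm_num
    have h6 : 0 ≤ √(2 : ℝ) := Real.sqrt_nonneg 2
    nlinarith
  refine mul_le_mul_of_nonneg_right (mul_le_mul_of_nonneg_right ?_ hW) (sq_nonneg h)
  calc (10 : ℝ) ^ 4 * ((√be + √2) ^ 2 * (√be ^ 2)⁻¹) ≤ 10 ^ 4 * (6 * be⁻¹) :=
        mul_le_mul_of_nonneg_left hk (by norm_num)
    _ = _ := by ring

end one

end

end Vale.Agent.P141.H831.Lbc
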