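import Vale.Agent.P141.H831.LbcW

/-!
# P141, line (A), (TI): the pair `(Bg, Cg)` at the hub `x1`, crude, any families

* `PBCg_le` : sum over the `x₀` from raw fields: times, agreement, masses, packing, rows.
-/

namespace Vale.Agent.P141.H831.Lbc

open Finset Matrix
open Vale.Agent.P075 (Ix val)
open Vale.Agent.P141.PL (Pt iv hs ix mem_iv ix_ix cx)
open Vale.Agent.P141.PL.H588 (hd Pl)
open Vale.Agent.P141.H958 (lbs)
open Vale.Agent.P141.H677 (KT GT rt sN tr_T)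
open Vale.Agent.P141.H677.Sk (FamA FamV)
open Vale.Agent.P141.H408 (rBC SN)
open Vale.Agent.P141.H652 (mass_x0)
open Vale.Agent.P141.H228.Gauge (Bg Cg PBCg)

noncomputable section

open scoped Classical

/-- labels -/
theorem exists_lab (κ : Type*) [Fintype κ] :
    ∃ (L : ℕ) (e : κ → ℤ), Function.Injective e ∧ ∀ i, e i ∈ lbs L := by
  have hc : Fintype.card κ ≤ 2 ^ Fintype.card κ := Nat.lt_two_pow_self.le
  have h1 : Fintype.card κ ≤ Fintype.card (lbs (Fintype.card κ)) := by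
    rw [Fintype.card_coe, H958.card_lbs]
    exact hc
  obtain ⟨f⟩ := Function.Embedding.nonempty_of_card_le h1
  exact ⟨Fintype.card κ, fun i => f i, fun i j hij => f.injective (Subtype.ext hij),
    fun i => (f i).2⟩

section fam

variable {ι : Type} [Fintype ι] [DecidableEq ι]

/-- **The pair `(Bg, Cg)` at the hub `x1`, crude, any families.** -/
theorem PBCg_le {Al : ℕ → Pt → Prop} {o : ℤ} (ho : o = 1 ∨ o = -1) {K : ℕ} {x : Pt}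
    {sg : ℕ → Pt → ℝ} {be l : ℝ} (hbe : 0 < be) (hbe1 : be ≤ 1) (hl : 0 < l)
    {u : ℤ → ℤ → ι → ℝ} {A : FamA} {b C : FamV ι} {QB QC : ℕ → ℤ → ℤ → ℤ → Prop}
    {mu cP lam : ℝ} (hmu : 0 ≤ mu) (hlam : 0 ≤ lam)
    (zB : ∀ x0, b x0 0 = 0) (zC : ∀ x0, C x0 0 = 0)
    (agB : ∀ k < K, ∀ x0 i m, ¬ QB k (ix k x0) i m → ∀ w ∈ iv k i, ∀ y ∈ iv k m,
      b x0 (k + 1) w y = b x0 k w y)
    (agC : ∀ k < K, ∀ x0 i m, ¬ QC k (ix k x0) i m → ∀ z ∈ iv k i, ∀ w ∈ iv k m,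
      C x0 (k + 1) z w = C x0 k z w)
    (massB : ∀ k < K, ∀ i, ∀ w' ∈ iv (K - k) (ix K x.1), ∀ y' ∈ iv (K - k) (ix K x.2.1),
      ∑ x0 ∈ iv k i, ∑ w ∈ iv k w', ∑ y ∈ iv k y', b x0 (k + 1) w y ⬝ᵥ b x0 (k + 1) w y ≤
        mu * 8 ^ k)
    (massC : ∀ k < K, ∀ i, ∀ z' ∈ iv (K - k) (ix K x.2.2), ∀ w' ∈ iv (K - k) (ix K x.1),
      ∑ x0 ∈ iv k i, ∑ z ∈ iv k z', ∑ w ∈ iv k w', C x0 (k + 1) z w ⬝ᵥ C x0 (k + 1) z w ≤
        mu * 8 ^ k)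
    (packB : ∀ x0 : ℤ, ∑ k ∈ range K,
      H588G.cnt K (ix K x.1) (ix K x.2.1) k (QB k (ix k x0)) ≤ cP * 4 ^ K)
    (packC : ∀ x0 : ℤ, ∑ k ∈ range K,
      H588G.cnt K (ix K x.2.2) (ix K x.1) k (QC k (ix k x0)) ≤ cP * 4 ^ K)
    (rowB : ∀ k < K, ∀ q, ∀ n ∈ iv (K - (k + 1)) (ix K x.2.1), ∀ w ∈ iv K (ix K x.1),
      ∑ x0 ∈ iv (k + 1) q, ∑ y ∈ iv (k + 1) n, b x0 (k + 1) w y ⬝ᵥ b x0 (k + 1) w y ≤
        lam * 4 ^ (k + 1))
    (rowC : ∀ k < K, ∀ q, ∀ n ∈ iv (K - (k + 1)) (ix K x.2.2), ∀ w ∈ iv K (ix K x.1),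
      ∑ x0 ∈ iv (k + 1) q, ∑ z ∈ iv (k + 1) n, C x0 (k + 1) z w ⬝ᵥ C x0 (k + 1) z w ≤
        lam * 4 ^ (k + 1))
    {h : ℝ} (hh : 0 < h) :
    PBCg be h h ι Al o K (cx K x) sg l u A b C ≤
      18 * 10 ^ 4 * be⁻¹ * (3 * (mu * (cP * 8 ^ K)) + 11 * lam * (4 ^ K * (8194 *
        (l⁻¹ * ∑ w ∈ iv K (ix K x.1), (GT u w K (ix K x.2.1)).trace)))) * h ^ 2 := by
  obtain ⟨L, e, he, hm⟩ := exists_lab (ι ⊕ ι)
  set W := 11 * lam * (4 ^ K * (8194 *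
        (l⁻¹ * ∑ w ∈ iv K (ix K x.1), (GT u w K (ix K x.2.1)).trace))) with hWd
  set DB : ℤ → ℝ := fun x0 => ∑ k ∈ range K, ∑ m ∈ iv (K - k) (ix K x.1),
    ∑ n ∈ iv (K - k) (ix K x.2.1), (if QB k (ix k x0) m n then
      ∑ w ∈ iv k m, ∑ y ∈ iv k n, b x0 (k + 1) w y ⬝ᵥ b x0 (k + 1) w y else 0) with hDBd
  set DC : ℤ → ℝ := fun x0 => ∑ k ∈ range K, ∑ m ∈ iv (K - k) (ix K x.1),
    ∑ n ∈ iv (K - k) (ix K x.2.2), (if QC k (ix k x0) n m then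
      ∑ w ∈ iv k m, ∑ z ∈ iv k n, C x0 (k + 1) z w ⬝ᵥ C x0 (k + 1) z w else 0) with hDCd
  have hDB : ∀ t, ∑ x0 ∈ iv K t, DB x0 ≤ mu * (cP * 8 ^ K) := fun t => by
    have h := mass_x0 (K := K) (R := ix K x.1) (S := ix K x.2.1) (t := t) (q := QB)
      (f := fun x0 k m n => ∑ w ∈ iv k m, ∑ y ∈ iv k n, b x0 (k + 1) w y ⬝ᵥ b x0 (k + 1) w y)
      (cP := cP) hmu (fun k hk i n hn m hm => massB k hk i n hn m hm) fun x0 _ => packB x0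
    refine le_trans (le_of_eq ?_) h
    refine sum_congr rfl fun x0 _ => sum_congr rfl fun k _ => ?_
    rw [sum_comm]
  have hDC : ∀ t, ∑ x0 ∈ iv K t, DC x0 ≤ mu * (cP * 8 ^ K) := fun t =>
    mass_x0 (K := K) (R := ix K x.2.2) (S := ix K x.1) (t := t) (q := QC)
      (f := fun x0 k n m => ∑ w ∈ iv k m, ∑ z ∈ iv k n, C x0 (k + 1) z w ⬝ᵥ C x0 (k + 1) z w)
      (cP := cP) hmu (fun k hk i n hn m hm => by
        refine le_trans (le_of_eq ?_) (massC k hk i n hn m hm)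
        exact sum_congr rfl fun x0 _ => sum_comm) fun x0 _ => packC x0
  have hTr : ∀ y, H420.Tr l K (GT u y) (KT l u y) := fun y => tr_T hl K u y
  have h1 : ∀ x0, ∑ k ∈ Icc 1 K, ∑ m ∈ sN Al o K (cx K x) x0 k,
      rBC (Bg (b x0 k)) (Cg be l K (cx K x).2.1 (KT l u) (o - 2) x0 (C x0 k) k) k m h h ≤
      6 * 10 ^ 4 * be⁻¹ * (2 * DB x0 + DC x0 +
        WW L e (√be) (√2) (VT l K (cx K x).2.1 (KT l u) (o - 2) x0) K (H677.rv (cx K x))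
          (H677.cP o x0) (b x0) (C x0)) * h ^ 2 := by
    intro x0
    exact lbc_x0 he hm (R := H677.rv (cx K x)) (H677.cP_pl ho x0)
      (fun k _ => H677.sN_sub Al o K (cx K x) x0 k) hbe hbe1 (cx K x).2.1 hTr (o - 2) x0
      (QB := fun k n m => QB k (ix k x0) m n) (QC := fun k n m => QC k (ix k x0) n m)
      (zB x0) (zC x0)
      (fun k hk n _ m _ hq y hy w hw => agB k hk x0 m n hq w hw y hy)
      (fun k hk n _ m _ hq z hz w hw => agC k hk x0 n m hq z hz w hw) le_rfl le_rfl hh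
  have h2 : ∀ t, ∑ x0 ∈ iv K t, WW L e (√be) (√2) (VT l K (cx K x).2.1 (KT l u) (o - 2) x0) K
      (H677.rv (cx K x)) (H677.cP o x0) (b x0) (C x0) ≤ W := fun t =>
    ww_sum (N := K) (R := H677.rv (cx K x)) he hm (Real.sqrt_pos.2 hbe) (Real.sqrt_nonneg 2)
      (fun x1 _ => hTr x1) (o - 2) (fun k _ i j hij => H677.cP_ix o hij) rowB rowC hlam
      (iv K t)
  have hb : 0 ≤ 6 * 10 ^ 4 * be⁻¹ := by positivity
  have h3 : PBCg be h h ι Al o K (cx K x) sg l u A b C ≤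
      ∑ t ∈ rt (cx K x), 6 * 10 ^ 4 * be⁻¹ * (3 * (mu * (cP * 8 ^ K)) + W) * h ^ 2 := by
    unfold H228.Gauge.PBCg H408.SN
    refine sum_le_sum fun t _ => ?_
    refine (sum_le_sum fun x0 _ => h1 x0).trans ?_
    rw [← sum_mul, ← mul_sum]
    refine mul_le_mul_of_nonneg_right (mul_le_mul_of_nonneg_left ?_ hb) (sq_nonneg h)
    rw [sum_add_distrib, sum_add_distrib, ← mul_sum]
    linarith [hDB t, hDC t, h2 t]
  refine h3.trans ?_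
  rw [sum_const, nsmul_eq_mul]
  have h4 : (rt (cx K x)).card = 3 := by
    unfold H677.rt
    rw [Int.card_Icc]
    omega
  rw [h4]
  refine le_of_eq ?_
  push_cast
  ring

end fam

end

end Vale.Agent.P141.H831.Lbc
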