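import Vale.Agent.P141.H831.LbcS
import Vale.Agent.P141.H150.WI

/-!
# P141, line (A), (TI): the row cost of the pair `(Bg, Cg)`, sum over the `x₀`

* `rr` : the weight of a node; `ww_le` : `WW` at one `x₀` by `rr`;
* `ww_sum` : the sum over the `x₀` from the row numbers, by `H150.wI_num`.
-/

namespace Vale.Agent.P141.H831.Lbc

open Finset Matrix
open Vale.Agent.P075 (Ix val)
open Vale.Agent.P141.PL (Pt iv hs ix mem_iv ix_ix)
open Vale.Agent.P141.PL.H588 (hd Pl)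
open Vale.Agent.P141.H958 (lbs encR pwr)
open Vale.Agent.P141.H338 (cu sum_cu_cu)
open Vale.Agent.P141.H609.RPW (um eb ec rt_eb rt_ec vd_um)
open Vale.Agent.P141.H433 (wf wh vd sum_iv_nest)
open Vale.Agent.P141.H822 (vk)
open Vale.Agent.P141.H103 (GW)
open Vale.Agent.P141.H420 (Tr)
open Vale.Agent.P141.H652 (Th)

noncomputable section

open scoped Classical

section one

variable {κ : Type*} [Fintype κ] [DecidableEq κ] {L : ℕ} {e : κ ⊕ κ → ℤ}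

/-- row means of the first slot -/
def qb (b : ℕ → ℤ → ℤ → κ → ℝ) (k : ℕ) (n x : ℤ) : ℝ :=
  ((2 : ℝ) ^ (k + 1))⁻¹ * ∑ y ∈ iv (k + 1) n, 2 * (b (k + 1) x y ⬝ᵥ b (k + 1) x y)

/-- row means of the second slot, scale `a` -/
def qc (C : ℕ → ℤ → ℤ → κ → ℝ) (k a : ℕ) (n x : ℤ) : ℝ :=
  ((2 : ℝ) ^ a)⁻¹ * ∑ z ∈ iv a n, C (k + 1) z x ⬝ᵥ C (k + 1) z x

omit [DecidableEq κ] in
theorem qb_nonneg (b : ℕ → ℤ → ℤ → κ → ℝ) (k : ℕ) (n x : ℤ) : 0 ≤ qb b k n x :=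
  mul_nonneg (by positivity) (sum_nonneg fun _ _ =>
    mul_nonneg (by norm_num) (H922.dot_self_nonneg _))

omit [DecidableEq κ] in
theorem qc_nonneg (C : ℕ → ℤ → ℤ → κ → ℝ) (k a : ℕ) (n x : ℤ) : 0 ≤ qc C k a n x :=
  mul_nonneg (by positivity) (sum_nonneg fun _ _ => H922.dot_self_nonneg _)

/-- the weight of the node -/
def rr (N : ℕ) (R : Pt) (c : ℕ → ℤ) (b C : ℕ → ℤ → ℤ → κ → ℝ) (k : ℕ) (x j : ℤ) : ℝ :=
  (if c (k + 1) - ix (k + 1) x - j ∈ iv (N - (k + 1)) R.2.1 then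
      qb b k (c (k + 1) - ix (k + 1) x - j) x else 0) + qc C k (k + 1) j x +
    ∑ r ∈ range (N - (k + 1) + 1), (3 / 4 : ℝ) ^ r *
      (qc C k (k + 1) j x + qc C k (k + 1 + r) (ix r j) x)

omit [DecidableEq κ] in
theorem rr_nonneg (N : ℕ) (R : Pt) (c : ℕ → ℤ) (b C : ℕ → ℤ → ℤ → κ → ℝ) (k : ℕ) (x j : ℤ) :
    0 ≤ rr N R c b C k x j := by
  unfold rr
  refine add_nonneg (add_nonneg ?_ (qc_nonneg ..)) (sum_nonneg fun r _ =>
    mul_nonneg (by positivity) (add_nonneg (qc_nonneg ..) (qc_nonneg ..)))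
  split_ifs
  · exact qb_nonneg ..
  · exact le_rfl

theorem rt_qb (he : Function.Injective e) (hm : ∀ i, e i ∈ lbs L) (b : ℕ → ℤ → ℤ → κ → ℝ)
    (k : ℕ) (n x : ℤ) : H433.rt L (eb L e (bS b) (L + (k + 1))) (k + 1) n x = qb b k n x := by
  rw [rt_eb]
  unfold qb
  congr 1
  refine sum_congr rfl fun y _ => ?_
  rw [← bS_sq b (k + 1) x y]
  have h := sum_cu_cu he hm (bS b (k + 1) x y) (bS b (k + 1) x y)
  rw [dotProduct, ← h]
  exact sum_congr rfl fun l _ => sq _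

theorem rt_qc (he : Function.Injective e) (hm : ∀ i, e i ∈ lbs L) (C : ℕ → ℤ → ℤ → κ → ℝ)
    (k a : ℕ) (n x : ℤ) : H433.rt L (ec L e C (L + (k + 1))) a n x = qc C k a n x := by
  rw [rt_ec]
  unfold qc
  congr 1
  refine sum_congr rfl fun z _ => ?_
  rw [← C0_sq (C (k + 1) z x)]
  have h := sum_cu_cu he hm (Sum.elim (C (k + 1) z x) (0 : κ → ℝ))
    (Sum.elim (C (k + 1) z x) (0 : κ → ℝ))
  rw [dotProduct, ← h]
  exact sum_congr rfl fun l _ => sq _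

/-- exchange of the free cell of a plane -/
theorem sum_plane (A B : Finset ℤ) (d : ℤ) (f : ℤ → ℤ → ℝ) :
    (∑ n ∈ A, if d - n ∈ B then f n (d - n) else 0) =
      ∑ j ∈ B, if d - j ∈ A then f (d - j) j else 0 := by
  rw [← sum_filter, ← sum_filter]
  refine sum_nbij' (fun n => d - n) (fun j => d - j) ?_ ?_ ?_ ?_ ?_
  · intro n hn
    rw [mem_filter] at hn ⊢
    exact ⟨hn.2, by rw [sub_sub_cancel]; exact hn.1⟩
  · intro j hj
    rw [mem_filter] at hj ⊢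
    exact ⟨hj.2, by rw [sub_sub_cancel]; exact hj.1⟩
  · intro n _
    exact sub_sub_cancel d n
  · intro j _
    exact sub_sub_cancel d j
  · intro n _
    rw [sub_sub_cancel]

/-- **The row cost at one `x₀`.** -/
theorem ww_le (he : Function.Injective e) (hm : ∀ i, e i ∈ lbs L) {ε K : ℝ} (hε : 0 < ε)
    (hK : 0 ≤ K) (V V' : ℕ → ℤ → ℤ → Matrix κ κ ℝ) (hV : ∀ k x j, vk V k x j ≤ vk V' k x j)
    (N : ℕ) (R : Pt) (c : ℕ → ℤ) (b C : ℕ → ℤ → ℤ → κ → ℝ) :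
    WW L e ε K V N R c b C ≤ ∑ x ∈ iv N R.2.2, ∑ k ∈ range N, 2 ^ (k + 1) *
      ∑ j ∈ iv (N - (k + 1)) R.1, rr N R c b C k x j * vk V' k x j := by
  have hvd : ∀ k x j, vd (um L e ε K V) k x j ≤ vk V' k x j := fun k x j =>
    (vd_um he hm hε hK V k x j).trans (hV k x j)
  have h1 : ∀ k ∈ range N, GW N R.2.1 R.2.2 R.1 (k + 1) (c (k + 1))
      (wf (um L e ε K V) (eb L e (bS b) (L + (k + 1))) (ec L e C (L + (k + 1))) k) ≤
      2 ^ (k + 1) * ∑ x ∈ iv N R.2.2, ∑ j ∈ iv (N - (k + 1)) R.1,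
        ((if c (k + 1) - ix (k + 1) x - j ∈ iv (N - (k + 1)) R.2.1 then
          qb b k (c (k + 1) - ix (k + 1) x - j) x else 0) + qc C k (k + 1) j x) *
          vk V' k x j := by
    intro k hk
    have hkN : k + 1 ≤ N := mem_range.1 hk
    have h4 : (4 : ℝ) ^ (k + 1) = 2 ^ (k + 1) * 2 ^ (k + 1) := by
      rw [show (4 : ℝ) = 2 * 2 by norm_num, mul_pow]
    unfold H103.GW
    have e1 := sum_iv_nest (N - (k + 1)) (k + 1) R.2.2 (fun x => ∑ j ∈ iv (N - (k + 1)) R.1,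
      ((if c (k + 1) - ix (k + 1) x - j ∈ iv (N - (k + 1)) R.2.1 then
          qb b k (c (k + 1) - ix (k + 1) x - j) x else 0) + qc C k (k + 1) j x) * vk V' k x j)
    rw [Nat.sub_add_cancel hkN] at e1
    rw [← e1, h4, mul_assoc]
    refine mul_le_mul_of_nonneg_left ?_ (by positivity)
    rw [mul_sum]
    refine sum_le_sum fun m _ => ?_
    rw [sum_plane (iv (N - (k + 1)) R.2.1) (iv (N - (k + 1)) R.1) (c (k + 1) - m)
      (fun n j => wf (um L e ε K V) (eb L e (bS b) (L + (k + 1))) (ec L e C (L + (k + 1))) k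
        n j m)]
    rw [sum_comm, mul_sum]
    refine sum_le_sum fun j _ => ?_
    have h2 : (2 : ℝ) ^ (k + 1) * ((2 : ℝ) ^ (k + 1))⁻¹ = 1 := mul_inv_cancel₀ (by positivity)
    split_ifs with hj
    · unfold H433.wf
      rw [← mul_assoc, h2, one_mul]
      refine sum_le_sum fun x hx => ?_
      have hx1 : ix (k + 1) x = m := mem_iv.1 hx
      rw [hx1, if_pos hj, rt_qb he hm, rt_qc he hm]
      exact mul_le_mul_of_nonneg_left (hvd k x j) (add_nonneg (qb_nonneg ..) (qc_nonneg ..))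
    · rw [mul_zero]
      refine sum_nonneg fun x hx => mul_nonneg (add_nonneg ?_ (qc_nonneg ..)) ?_
      · split_ifs
        · exact qb_nonneg ..
        · exact le_rfl
      · exact (H433.vd_nonneg _ k x j).trans (hvd k x j)
  have h2 : ∀ k ∈ range N, wh (um L e ε K V) (ec L e C (L + (k + 1))) N R.2.2 R.1 k ≤
      2 ^ (k + 1) * ∑ x ∈ iv N R.2.2, ∑ j ∈ iv (N - (k + 1)) R.1,
        (∑ r ∈ range (N - (k + 1) + 1), (3 / 4 : ℝ) ^ r *
          (qc C k (k + 1) j x + qc C k (k + 1 + r) (ix r j) x)) * vk V' k x j := by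
    intro k _
    unfold H433.wh
    have e1 : 2 ^ (k + 1) * ∑ x ∈ iv N R.2.2, ∑ j ∈ iv (N - (k + 1)) R.1,
        (∑ r ∈ range (N - (k + 1) + 1), (3 / 4 : ℝ) ^ r *
          (qc C k (k + 1) j x + qc C k (k + 1 + r) (ix r j) x)) * vk V' k x j =
        ∑ r ∈ range (N - (k + 1) + 1), (3 / 4 : ℝ) ^ r * (2 ^ (k + 1) * ∑ x ∈ iv N R.2.2,
          ∑ j ∈ iv (N - (k + 1)) R.1,
            (qc C k (k + 1) j x + qc C k (k + 1 + r) (ix r j) x) * vk V' k x j) := by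
      simp only [sum_mul, mul_sum]
      rw [sum_comm' (s := range (N - (k + 1) + 1)) (t := fun _ => iv N R.2.2)
        (s' := fun _ => range (N - (k + 1) + 1)) (t' := iv N R.2.2) (by tauto)]
      refine sum_congr rfl fun x _ => ?_
      rw [sum_comm' (s := range (N - (k + 1) + 1)) (t := fun _ => iv (N - (k + 1)) R.1)
        (s' := fun _ => range (N - (k + 1) + 1)) (t' := iv (N - (k + 1)) R.1) (by tauto)]
      refine sum_congr rfl fun j _ => ?_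
      exact sum_congr rfl fun r _ => by ring
    rw [e1]
    refine sum_le_sum fun r _ => mul_le_mul_of_nonneg_left (mul_le_mul_of_nonneg_left
      (sum_le_sum fun x _ => sum_le_sum fun j _ => ?_) (by positivity)) (by positivity)
    rw [rt_qc he hm, rt_qc he hm]
    exact mul_le_mul_of_nonneg_left (hvd k x j) (add_nonneg (qc_nonneg ..) (qc_nonneg ..))
  unfold WW
  refine (add_le_add (sum_le_sum h1) (sum_le_sum h2)).trans (le_of_eq ?_)
  rw [← sum_add_distrib, sum_comm (s := iv N R.2.2) (t := range N)]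
  refine sum_congr rfl fun k _ => ?_
  rw [← mul_add, ← sum_add_distrib, ← mul_sum]
  congr 1
  refine sum_congr rfl fun x _ => ?_
  rw [← sum_add_distrib]
  refine sum_congr rfl fun j _ => ?_
  unfold rr
  ring

end one

/-! ### Rows -/

section rows

variable {κ : Type} [Fintype κ] [DecidableEq κ] {N : ℕ} {R : Pt}

omit [DecidableEq κ] in
/-- the rows of the weight -/
theorem rr_rows {b C : ℤ → ℕ → ℤ → ℤ → κ → ℝ} {c : ℤ → ℕ → ℤ} {lam : ℝ}
    (hcx : ∀ k < N, ∀ i j, ix (k + 1) i = ix (k + 1) j → c i (k + 1) = c j (k + 1))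
    (hB : ∀ k < N, ∀ q, ∀ n ∈ iv (N - (k + 1)) R.2.1, ∀ x ∈ iv N R.2.2,
      ∑ x0 ∈ iv (k + 1) q, ∑ y ∈ iv (k + 1) n, b x0 (k + 1) x y ⬝ᵥ b x0 (k + 1) x y ≤
        lam * 4 ^ (k + 1))
    (hC : ∀ k < N, ∀ q, ∀ n ∈ iv (N - (k + 1)) R.1, ∀ x ∈ iv N R.2.2,
      ∑ x0 ∈ iv (k + 1) q, ∑ z ∈ iv (k + 1) n, C x0 (k + 1) z x ⬝ᵥ C x0 (k + 1) z x ≤
        lam * 4 ^ (k + 1))
    (hl : 0 ≤ lam) {k : ℕ} (hk : k < N) (q : ℤ) {x : ℤ} (hx : x ∈ iv N R.2.2) {j : ℤ}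
    (hj : j ∈ iv (N - (k + 1)) R.1) :
    ∑ x0 ∈ iv (k + 1) q, rr N R (c x0) (b x0) (C x0) k x j ≤ 11 * lam * 2 ^ (k + 1) := by
  have h4 : (4 : ℝ) ^ (k + 1) = 2 ^ (k + 1) * 2 ^ (k + 1) := by
    rw [show (4 : ℝ) = 2 * 2 by norm_num, mul_pow]
  have h2 : ((2 : ℝ) ^ (k + 1))⁻¹ * (2 ^ (k + 1) * 2 ^ (k + 1)) = 2 ^ (k + 1) := by
    rw [← mul_assoc, inv_mul_cancel₀ (by positivity), one_mul]
  have hp : (0 : ℝ) ≤ ((2 : ℝ) ^ (k + 1))⁻¹ := by positivity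
  -- the second slot at its own cell
  have a1 : ∀ i ∈ iv (N - (k + 1)) R.1,
      ∑ x0 ∈ iv (k + 1) q, qc (C x0) k (k + 1) i x ≤ lam * 2 ^ (k + 1) := by
    intro i hi
    unfold qc
    rw [← mul_sum]
    refine (mul_le_mul_of_nonneg_left (hC k hk q i hi x hx) hp).trans (le_of_eq ?_)
    rw [h4, mul_left_comm, h2]
  -- the second slot, means over bigger cells
  have a2 : ∀ r ∈ range (N - (k + 1) + 1),
      ∑ x0 ∈ iv (k + 1) q, qc (C x0) k (k + 1 + r) (ix r j) x ≤ lam * 2 ^ (k + 1) := by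
    intro r hr
    have hr' : r ≤ N - (k + 1) := Nat.lt_succ_iff.1 (mem_range.1 hr)
    have e1 : ∀ x0, qc (C x0) k (k + 1 + r) (ix r j) x =
        ((2 : ℝ) ^ r)⁻¹ * ∑ i ∈ iv r (ix r j), qc (C x0) k (k + 1) i x := by
      intro x0
      unfold qc
      have e2 := sum_iv_nest r (k + 1) (ix r j)
        (fun z => C x0 (k + 1) z x ⬝ᵥ C x0 (k + 1) z x)
      rw [Nat.add_comm r (k + 1)] at e2
      rw [← e2, ← mul_sum, ← mul_assoc, ← mul_inv, ← pow_add, Nat.add_comm r (k + 1)]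
    simp only [e1]
    rw [← mul_sum, sum_comm]
    have h3 : ∑ i ∈ iv r (ix r j), ∑ x0 ∈ iv (k + 1) q, qc (C x0) k (k + 1) i x ≤
        ∑ i ∈ iv r (ix r j), lam * 2 ^ (k + 1) := by
      refine sum_le_sum fun i hi => a1 i ?_
      rw [mem_iv] at hi hj ⊢
      have e3 : ix (N - (k + 1)) i = ix (N - (k + 1) - r) (ix r i) := by
        rw [ix_ix, Nat.add_sub_cancel' hr']
      have e4 : ix (N - (k + 1)) j = ix (N - (k + 1) - r) (ix r j) := by
        rw [ix_ix, Nat.add_sub_cancel' hr']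
      rw [e3, hi, ← e4, hj]
    refine (mul_le_mul_of_nonneg_left h3 (by positivity)).trans (le_of_eq ?_)
    rw [sum_const, nsmul_eq_mul, PL.card_iv]
    push_cast
    rw [← mul_assoc, inv_mul_cancel₀ (by positivity), one_mul]
  -- the first slot at the tied cell
  have a3 : ∑ x0 ∈ iv (k + 1) q,
      (if c x0 (k + 1) - ix (k + 1) x - j ∈ iv (N - (k + 1)) R.2.1 then
        qb (b x0) k (c x0 (k + 1) - ix (k + 1) x - j) x else 0) ≤ 2 * lam * 2 ^ (k + 1) := by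
    set d := c (2 ^ (k + 1) * q) (k + 1) - ix (k + 1) x - j with hd
    have e1 : ∀ x0 ∈ iv (k + 1) q, c x0 (k + 1) - ix (k + 1) x - j = d := by
      intro x0 h0
      rw [hd, hcx k hk x0 (2 ^ (k + 1) * q) ((mem_iv.1 h0).trans
        (H769.ix_two_pow_mul (k + 1) q).symm)]
    by_cases h5 : d ∈ iv (N - (k + 1)) R.2.1
    · have e2 : ∑ x0 ∈ iv (k + 1) q,
          (if c x0 (k + 1) - ix (k + 1) x - j ∈ iv (N - (k + 1)) R.2.1 then
            qb (b x0) k (c x0 (k + 1) - ix (k + 1) x - j) x else 0) =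
          ∑ x0 ∈ iv (k + 1) q, qb (b x0) k d x := by
        refine sum_congr rfl fun x0 h0 => ?_
        rw [e1 x0 h0, if_pos h5]
      rw [e2]
      unfold qb
      rw [← mul_sum]
      simp only [← mul_sum]
      refine (mul_le_mul_of_nonneg_left (mul_le_mul_of_nonneg_left (hB k hk q d h5 x hx)
        (by norm_num : (0 : ℝ) ≤ 2)) hp).trans (le_of_eq ?_)
      rw [h4, mul_left_comm, mul_left_comm (((2 : ℝ) ^ (k + 1))⁻¹) lam, h2]
      ring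
    · rw [sum_eq_zero fun x0 h0 => by rw [e1 x0 h0, if_neg h5]]
      positivity
  unfold rr
  rw [sum_add_distrib, sum_add_distrib]
  have a4 : ∑ x0 ∈ iv (k + 1) q, ∑ r ∈ range (N - (k + 1) + 1), (3 / 4 : ℝ) ^ r *
      (qc (C x0) k (k + 1) j x + qc (C x0) k (k + 1 + r) (ix r j) x) ≤
      8 * lam * 2 ^ (k + 1) := by
    rw [sum_comm]
    have e1 : ∀ r ∈ range (N - (k + 1) + 1), ∑ x0 ∈ iv (k + 1) q, (3 / 4 : ℝ) ^ r *
        (qc (C x0) k (k + 1) j x + qc (C x0) k (k + 1 + r) (ix r j) x) ≤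
        (3 / 4 : ℝ) ^ r * (2 * lam * 2 ^ (k + 1)) := by
      intro r hr
      rw [← mul_sum, sum_add_distrib]
      refine mul_le_mul_of_nonneg_left ?_ (by positivity)
      linarith [a1 j hj, a2 r hr]
    refine (sum_le_sum e1).trans ?_
    rw [← sum_mul]
    have e2 : ∑ r ∈ range (N - (k + 1) + 1), (3 / 4 : ℝ) ^ r ≤ 4 := by
      rw [geom_sum_eq (by norm_num)]
      have h7 : (0 : ℝ) ≤ (3 / 4 : ℝ) ^ (N - (k + 1) + 1) := by positivity
      have h8 : ((3 / 4 : ℝ) ^ (N - (k + 1) + 1) - 1) / (3 / 4 - 1) =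
          4 * (1 - (3 / 4 : ℝ) ^ (N - (k + 1) + 1)) := by ring
      rw [h8]
      linarith
    have e3 : 0 ≤ 2 * lam * 2 ^ (k + 1) := by positivity
    refine (mul_le_mul_of_nonneg_right e2 e3).trans (le_of_eq (by ring))
  linarith [a1 j hj, a3, a4]

/-- **The row cost summed over the `x₀`.** -/
theorem ww_sum {L : ℕ} {e : κ ⊕ κ → ℤ} (he : Function.Injective e) (hm : ∀ i, e i ∈ lbs L)
    {ε K : ℝ} (hε : 0 < ε) (hK : 0 ≤ K) {l : ℝ} {M : ℤ} {G Kq : ℤ → ℕ → ℤ → Matrix κ κ ℝ}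
    (hT : ∀ x1 ∈ iv N R.2.2, Tr l N (G x1) (Kq x1)) (c' : ℤ)
    {b C : ℤ → ℕ → ℤ → ℤ → κ → ℝ} {c : ℤ → ℕ → ℤ} {lam : ℝ}
    (hcx : ∀ k < N, ∀ i j, ix (k + 1) i = ix (k + 1) j → c i (k + 1) = c j (k + 1))
    (hB : ∀ k < N, ∀ q, ∀ n ∈ iv (N - (k + 1)) R.2.1, ∀ x ∈ iv N R.2.2,
      ∑ x0 ∈ iv (k + 1) q, ∑ y ∈ iv (k + 1) n, b x0 (k + 1) x y ⬝ᵥ b x0 (k + 1) x y ≤
        lam * 4 ^ (k + 1))
    (hC : ∀ k < N, ∀ q, ∀ n ∈ iv (N - (k + 1)) R.1, ∀ x ∈ iv N R.2.2,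
      ∑ x0 ∈ iv (k + 1) q, ∑ z ∈ iv (k + 1) n, C x0 (k + 1) z x ⬝ᵥ C x0 (k + 1) z x ≤
        lam * 4 ^ (k + 1))
    (hl : 0 ≤ lam) (X : Finset ℤ) :
    ∑ x0 ∈ X, WW L e ε K (VT l N M Kq c' x0) N R (c x0) (b x0) (C x0) ≤
      11 * lam * (4 ^ N * (8194 * (l⁻¹ * ∑ x1 ∈ iv N R.2.2, (G x1 N M).trace))) := by
  refine (sum_le_sum fun x0 _ => ww_le he hm hε hK (VT l N M Kq c' x0)
    (fun k x j => Th l N M (Kq x) c' x0 x k j) (fun k x j =>
      H150.WI.vk_half (fun k x j => Th l N M (Kq x) c' x0 x k j) k x j) N R (c x0) (b x0)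
      (C x0)).trans ?_
  exact H150.WI.wI_num (ρ := fun k x0 x1 j => rr N R (c x0) (b x0) (C x0) k x1 j) hT
    (by positivity) (fun k x0 x1 j => rr_nonneg ..)
    (fun k hk q x1 hx j hj => rr_rows hcx hB hC hl hk q hx hj) X c'

end rows

end

end Vale.Agent.P141.H831.Lbc
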