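import Vale.Agent.P141.H652.PairBt

/-!
# P141, line (A), (TI): the static saturated pair `(Ct, A)` at the hub `x3`

* `QW_Ct_dom` : `Ct = W ^ (1/2) C` is dominated by `√3 C` (`be ≤ 1`);
* `rCA_x0` : one `x₀`, all levels; `PCA_le` : `PCAf be y σ ≤ 6600 μ cP y ^ 2 8 ^ K` for `σ ≤ y`.
-/

namespace Vale.Agent.P141.H831

open Finset Matrix Vale.Agent.P075
open Vale.Agent.P141.PL (Pt iv hs ix cx mem_iv card_iv ix_ix)
open Vale.Agent.P141.PL.H588 (hd Pl)
open Vale.Agent.P141.H736 (sqb)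
open Vale.Agent.P141.H103 (QW PA QW_psd)
open Vale.Agent.P141.H677 (KT GT sN rt tr_T)
open Vale.Agent.P141.H677.Sk (FamA FamV)
open Vale.Agent.P141.H408 (Ct Wg Wg_pd PCAf SN rCA)
open Vale.Agent.P141.H420 (Tr)
open Vale.Agent.P141.H652 (Th Th_psd Th_le_two pairL sqv phs_mono mass_x0)
open Vale.Agent.P141.H43.RpX (QW1_psd PA_psd')
open Vale.Agent.P141.H585.PairCh (phs)

noncomputable section

open scoped Classical

variable {κ : Type*} [Fintype κ] [DecidableEq κ]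

/-! ### The weight -/

theorem val_mem' (k : ℕ) (m : ℤ) (j : Ix k) : (2 : ℤ) ^ k * m + val k j ∈ iv k m := by
  have h := val_lt k j
  have h2 : (val k j : ℤ) < 2 ^ k := by exact_mod_cast h
  rw [iv, mem_Ico]
  constructor <;> omega

/-- the Gram matrix of `Ct`, middle variable `x3` -/
theorem QW_Ct_eq (be l : ℝ) (N : ℕ) (S : ℤ) {G Kq : ℤ → ℕ → ℤ → Matrix κ κ ℝ} (hbe : 0 < be)
    (h : ∀ x, Tr l N (G x) (Kq x)) (c x0 : ℤ) (C : ℤ → ℤ → κ → ℝ) (k : ℕ) (n m : ℤ) :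
    QW k k (fun x z => Ct be l N S Kq c x0 C k z x) (fun _ => 1) n m =
      QW k k (fun x z => C z x) (fun x => Wg be l N S Kq c x0 x k m) n m := by
  ext p q
  unfold H103.QW
  congr 1
  refine sum_congr rfl fun x _ => ?_
  rw [one_mulVec]
  unfold H408.Ct
  have hm : ∀ j : Ix k, ix k ((2 : ℤ) ^ k * m + val k j) = m := fun j =>
    mem_iv.1 (val_mem' k m j)
  obtain ⟨h1, h2⟩ := H408.sq_spec (Wg_pd hbe h c x0 x k m (S := S))
  have hrt : (H408.sq (Wg be l N S Kq c x0 x k m))ᵀ =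
      H408.sq (Wg be l N S Kq c x0 x k m) := h1.isHermitian
  beta_reduce
  rw [hm, hm]
  set r := H408.sq (Wg be l N S Kq c x0 x k m)
  rw [← h2, ← mulVec_mulVec, dotProduct_mulVec _ r (r *ᵥ _), ← mulVec_transpose, hrt]

/-- **`Ct` is dominated by `√3 C`.** -/
theorem QW_Ct_dom {be l : ℝ} {N : ℕ} {S : ℤ} {G Kq : ℤ → ℕ → ℤ → Matrix κ κ ℝ} (hbe : 0 < be)
    (hbe1 : be ≤ 1) (h : ∀ x, Tr l N (G x) (Kq x)) (c x0 : ℤ) (C : ℤ → ℤ → κ → ℝ) (k : ℕ)
    (n m : ℤ) :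
    ((3 : ℝ) • QW k k (fun x z => C z x) (fun _ => 1) n m -
      QW k k (fun x z => Ct be l N S Kq c x0 C k z x) (fun _ => 1) n m).PosSemidef := by
  rw [QW_Ct_eq be l N S hbe h]
  have e : (3 : ℝ) • QW k k (fun x z => C z x) (fun _ => (1 : Matrix κ κ ℝ)) n m -
      QW k k (fun x z => C z x) (fun x => Wg be l N S Kq c x0 x k m) n m =
      QW k k (fun x z => C z x)
        (fun x => (3 : ℝ) • (1 : Matrix κ κ ℝ) - Wg be l N S Kq c x0 x k m) n m := by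
    ext p q
    rw [Matrix.sub_apply, Matrix.smul_apply, smul_eq_mul]
    unfold H103.QW
    rw [mul_left_comm, ← mul_sub, mul_sum (a := (3 : ℝ)), ← sum_sub_distrib]
    congr 1
    refine sum_congr rfl fun x _ => ?_
    rw [one_mulVec, sub_mulVec, dotProduct_sub, smul_mulVec, one_mulVec, dotProduct_smul,
      smul_eq_mul]
  rw [e]
  refine QW_psd (fun x => ?_) n m
  have e2 : (3 : ℝ) • (1 : Matrix κ κ ℝ) - Wg be l N S Kq c x0 x k m =
      (1 - be) • (1 : Matrix κ κ ℝ) +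
        ((2 : ℝ) • (1 : Matrix κ κ ℝ) - Th l N S (Kq x) c x0 x k m) := by
    unfold H408.Wg
    have e3 : (3 : ℝ) • (1 : Matrix κ κ ℝ) = (1 : ℝ) • (1 : Matrix κ κ ℝ) +
        (2 : ℝ) • (1 : Matrix κ κ ℝ) := by rw [← add_smul]; norm_num
    rw [e3, sub_smul]
    abel
  rw [e2]
  exact (PosSemidef.one.smul (sub_nonneg.2 hbe1)).add (Th_le_two (h x) c x0 x k m)

/-! ### One `x₀` -/

omit [DecidableEq κ] in
/-- the Gram matrix of `√3 C` -/
theorem QW_three [DecidableEq κ] (k : ℕ) (b : ℤ → ℤ → κ → ℝ) (n m : ℤ) :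
    QW k k (fun x y => √3 • b x y) (fun _ => 1) n m = (3 : ℝ) • QW k k b (fun _ => 1) n m := by
  ext i j
  rw [Matrix.smul_apply, smul_eq_mul]
  unfold H103.QW
  rw [mul_left_comm, mul_sum (a := (3 : ℝ))]
  congr 1
  refine sum_congr rfl fun x _ => ?_
  rw [one_mulVec, one_mulVec, smul_dotProduct, dotProduct_smul, smul_eq_mul, smul_eq_mul,
    ← mul_assoc, Real.mul_self_sqrt (by norm_num)]

/-- **The static saturated pair at the hub `x3`, one `x₀`, second function dominated at every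
node.** -/
theorem rCA_x0 {κ' : Type*} [Fintype κ'] [DecidableEq κ'] {N : ℕ} {M : Pt} {c : ℕ → ℤ}
    (hc : Pl c) {Q Q' : ℕ → ℤ → ℤ → Prop}
    {A : ℕ → ℤ → ℤ → ℝ} {C : ℕ → ℤ → ℤ → κ → ℝ} {Cn : ℕ → Pt → ℤ → ℤ → κ' → ℝ}
    (hA : ∀ k < N, ∀ n ∈ iv (N - k) M.2.1, ∀ m ∈ iv (N - k) M.1, ¬ Q k m n →
      ∀ y ∈ iv k n, ∀ z ∈ iv k m, A (k + 1) z y = A k z y)
    (hC : ∀ k < N, ∀ n ∈ iv (N - k) M.2.2, ∀ m ∈ iv (N - k) M.1, ¬ Q' k m n →
      ∀ x ∈ iv k n, ∀ z ∈ iv k m, C (k + 1) z x = C k z x)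
    (hA0 : A 0 = 0) (hC0 : C 0 = 0) {DA DC : ℝ}
    (hDA : ∑ k ∈ range N, (∑ m ∈ iv (N - k) M.1, ∑ n ∈ iv (N - k) M.2.1,
      if Q k m n then sqb k n m (fun y z => A (k + 1) z y) else 0) ≤ DA)
    (hDC : ∑ k ∈ range N, (∑ m ∈ iv (N - k) M.1, ∑ n ∈ iv (N - k) M.2.2,
      if Q' k m n then sqv k n m (fun x z => C (k + 1) z x) else 0) ≤ DC)
    {x y : ℝ} (hx : 0 < x) (hy : 0 < y)
    {s : ℕ → Finset Pt} (hs : ∀ k ∈ Icc 1 N, s k ⊆ PL.H804.bx3 N M k (c k))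
    (hCn : ∀ k ∈ Icc 1 N, ∀ m ∈ s k,
      ((3 : ℝ) • QW k k (fun x z => C k z x) (fun _ => 1) m.2.2 m.1 -
      QW k k (fun x z => Cn k m z x) (fun _ => 1) m.2.2 m.1).PosSemidef) :
    ∑ k ∈ Icc 1 N, ∑ m ∈ s k, rCA (Cn k m) (A k) k m y x ≤
      550 * (y ^ 2 * DA + 3 * x ^ 2 * DC) := by
  have h1 := pairL (c := c) hc (R := M.2.1) (S := M.1) (T := M.2.2)
    (Q := fun k n m => Q k m n) (Q' := fun k n m => Q' k m n)
    (A := fun k y z => A k z y) (b := fun k x z => √3 • C k z x)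
    (fun k hk n hn m hm hq y hy z hz => hA k hk n hn m hm hq y hy z hz)
    (fun k hk n hn m hm hq x hx z hz => by rw [hC k hk n hn m hm hq x hx z hz])
    (by funext y' z'; simp [hA0]) (by funext x' z'; simp [hC0]) hDA (DB := 3 * DC) (by
      refine le_trans (le_of_eq ?_) (mul_le_mul_of_nonneg_left hDC (by norm_num : (0:ℝ) ≤ 3))
      rw [mul_sum]
      refine sum_congr rfl fun k _ => ?_
      rw [mul_sum]
      refine sum_congr rfl fun m _ => ?_
      rw [mul_sum]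
      refine sum_congr rfl fun n _ => ?_
      split_ifs
      · unfold H652.sqv
        rw [mul_sum]
        refine sum_congr rfl fun x _ => ?_
        rw [mul_sum]
        refine sum_congr rfl fun y _ => ?_
        rw [smul_dotProduct, dotProduct_smul, smul_eq_mul, smul_eq_mul, ← mul_assoc,
          Real.mul_self_sqrt (by norm_num)]
      · rw [mul_zero]) hx hy
  refine le_trans ?_ (h1.trans (le_of_eq (by ring)))
  refine sum_le_sum fun k hk => ?_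
  have pA : ∀ n m : ℤ, (phs (x ^ 2) (PA (fun y z => A k z y) k k n m)).PosSemidef := fun n m =>
    (phi_psd ((PA_psd' _ _ _ _).smul (by positivity))).smul (by positivity)
  have pC : ∀ n m : ℤ, (phs (y ^ 2)
      (QW k k (fun x z => √3 • C k z x) (fun _ => 1) n m)).PosSemidef := fun n m =>
    (phi_psd ((QW1_psd _ _ _ _).smul (by positivity))).smul (by positivity)
  have hnn : ∀ m : Pt, 0 ≤ 4 ^ k * (phs (x ^ 2) (PA (fun y z => A k z y) k k m.2.1 m.1) *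
      (hd k * phs (y ^ 2) (QW k k (fun x z => √3 • C k z x) (fun _ => 1) m.2.2 m.1) *
        hd k)).trace := by
    intro m
    exact mul_nonneg (by positivity)
      (trace_mul_nonneg (pA _ _) (psd_conj_symm (pC _ _) (PL.H804.hd_symm k)))
  have h2 : ∀ m ∈ s k, rCA (Cn k m) (A k) k m y x ≤
      4 ^ k * (phs (x ^ 2) (PA (fun y z => A k z y) k k m.2.1 m.1) *
      (hd k * phs (y ^ 2) (QW k k (fun x z => √3 • C k z x) (fun _ => 1) m.2.2 m.1) *
        hd k)).trace := by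
    intro m hm
    unfold H408.rCA
    refine mul_le_mul_of_nonneg_left ?_ (by positivity)
    have e : (phs (y ^ 2) (QW k k (fun x z => Cn k m z x) (fun _ => 1) m.2.2 m.1) *
        (hd k * phs (x ^ 2) (PL.H588.Xg k k (fun y z => A k z y) m.2.1 m.1) * hd k)).trace =
        (phs (x ^ 2) (PA (fun y z => A k z y) k k m.2.1 m.1) * (hd k * phs (y ^ 2)
          (QW k k (fun x z => Cn k m z x) (fun _ => 1) m.2.2 m.1) * hd k)).trace := by
      set P := phs (y ^ 2) (QW k k (fun x z => Cn k m z x) (fun _ => 1) m.2.2 m.1)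
      have e1 : phs (x ^ 2) (PL.H588.Xg k k (fun y z => A k z y) m.2.1 m.1) =
        phs (x ^ 2) (PA (fun y z => A k z y) k k m.2.1 m.1) := rfl
      rw [e1]
      set R := phs (x ^ 2) (PA (fun y z => A k z y) k k m.2.1 m.1)
      calc (P * (hd k * R * hd k)).trace = ((P * hd k) * (R * hd k)).trace := by
            simp only [Matrix.mul_assoc]
        _ = ((R * hd k) * (P * hd k)).trace := trace_mul_comm _ _
        _ = _ := by simp only [Matrix.mul_assoc]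
    rw [e]
    refine trace_mul_le_right (pA _ _) ?_
    rw [QW_three]
    have h3 := phs_mono (s := y ^ 2) (by positivity)
      (QW1_psd k (fun x z => Cn k m z x) m.2.2 m.1) (hCn k hk m hm)
    have h4 := psd_conj_symm h3 (PL.H804.hd_symm k)
    rwa [Matrix.mul_sub, Matrix.sub_mul] at h4
  refine (sum_le_sum h2).trans ((sum_le_sum_of_subset_of_nonneg (hs k hk) fun m _ _ =>
    hnn m).trans (le_of_eq ?_))
  rw [PL.H804.sum_bx3_12]
  unfold H103.GW
  rw [mul_sum]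
  refine sum_congr rfl fun m1 _ => ?_
  rw [mul_sum]
  refine sum_congr rfl fun m2 _ => ?_
  split_ifs
  · rfl
  · rw [mul_zero]

section fam

variable {ι : Type} [Fintype ι] [DecidableEq ι]

/-- **Leaf `LCA1` of the increasing part**: the static saturated pair at the hub `x3`. -/
theorem PCA_le {Al : ℕ → Pt → Prop} {o : ℤ} (ho : o = 1 ∨ o = -1) {K : ℕ} {x : Pt}
    {sg : ℕ → Pt → ℝ} {be l : ℝ} (hbe : 0 < be) (hbe1 : be ≤ 1) (hl : 0 < l)
    {u : ℤ → ℤ → ι → ℝ} {A : FamA}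
    {b C : FamV ι} {QA QC : ℕ → ℤ → ℤ → ℤ → Prop} {mu cP : ℝ} (hmu : 0 ≤ mu)
    (zA : ∀ x0, A x0 0 = 0) (zC : ∀ x0, C x0 0 = 0)
    (agA : ∀ k < K, ∀ x0 i m, ¬ QA k (ix k x0) i m → ∀ z ∈ iv k i, ∀ y ∈ iv k m,
      A x0 (k + 1) z y = A x0 k z y)
    (agC : ∀ k < K, ∀ x0 i m, ¬ QC k (ix k x0) i m → ∀ z ∈ iv k i, ∀ w ∈ iv k m,
      C x0 (k + 1) z w = C x0 k z w)
    (massA : ∀ k < K, ∀ i, ∀ z' ∈ iv (K - k) (ix K x.2.2), ∀ y' ∈ iv (K - k) (ix K x.2.1),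
      ∑ x0 ∈ iv k i, ∑ z ∈ iv k z', ∑ y ∈ iv k y', A x0 (k + 1) z y ^ 2 ≤ mu * 8 ^ k)
    (massC : ∀ k < K, ∀ i, ∀ z' ∈ iv (K - k) (ix K x.2.2), ∀ w' ∈ iv (K - k) (ix K x.1),
      ∑ x0 ∈ iv k i, ∑ z ∈ iv k z', ∑ w ∈ iv k w', C x0 (k + 1) z w ⬝ᵥ C x0 (k + 1) z w ≤
        mu * 8 ^ k)
    (packA : ∀ x0 : ℤ, ∑ k ∈ range K,
      H588G.cnt K (ix K x.2.2) (ix K x.2.1) k (QA k (ix k x0)) ≤ cP * 4 ^ K)
    (packC : ∀ x0 : ℤ, ∑ k ∈ range K,
      H588G.cnt K (ix K x.2.2) (ix K x.1) k (QC k (ix k x0)) ≤ cP * 4 ^ K)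
    {y σ : ℝ} (hσ : 0 < σ) (hy : σ ≤ y) :
    PCAf be y σ ι Al o K (cx K x) sg l u A b C ≤ 6600 * (mu * (cP * 8 ^ K)) * y ^ 2 := by
  have hy0 : 0 < y := hσ.trans_le hy
  set DA : ℤ → ℝ := fun x0 => ∑ k ∈ range K, ∑ m ∈ iv (K - k) (ix K x.2.2),
    ∑ n ∈ iv (K - k) (ix K x.2.1), (if QA k (ix k x0) m n then
      sqb k n m (fun y z => A x0 (k + 1) z y) else 0) with hDAd
  set DC : ℤ → ℝ := fun x0 => ∑ k ∈ range K, ∑ m ∈ iv (K - k) (ix K x.2.2),
    ∑ n ∈ iv (K - k) (ix K x.1), (if QC k (ix k x0) m n then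
      sqv k n m (fun w z => C x0 (k + 1) z w) else 0) with hDCd
  have hDA : ∀ t, ∑ x0 ∈ iv K t, DA x0 ≤ mu * (cP * 8 ^ K) := fun t => by
    have h := mass_x0 (K := K) (R := ix K x.2.2) (S := ix K x.2.1) (t := t) (q := QA)
      (f := fun x0 k m n => sqb k n m (fun y z => A x0 (k + 1) z y)) (cP := cP) hmu
      (fun k hk i n hn m hm => by
        refine le_trans (le_of_eq ?_) (massA k hk i n hn m hm)
        refine sum_congr rfl fun x0 _ => ?_
        unfold H736.sqb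
        rfl) fun x0 _ => packA x0
    refine le_trans (le_of_eq ?_) h
    refine sum_congr rfl fun x0 _ => sum_congr rfl fun k _ => ?_
    rw [sum_comm]
  have hDC : ∀ t, ∑ x0 ∈ iv K t, DC x0 ≤ mu * (cP * 8 ^ K) := fun t => by
    have h := mass_x0 (K := K) (R := ix K x.2.2) (S := ix K x.1) (t := t) (q := QC)
      (f := fun x0 k m n => sqv k n m (fun w z => C x0 (k + 1) z w)) (cP := cP) hmu
      (fun k hk i n hn m hm => by
        refine le_trans (le_of_eq ?_) (massC k hk i n hn m hm)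
        refine sum_congr rfl fun x0 _ => ?_
        unfold H652.sqv
        exact sum_comm) fun x0 _ => packC x0
    refine le_trans (le_of_eq ?_) h
    refine sum_congr rfl fun x0 _ => sum_congr rfl fun k _ => ?_
    rw [sum_comm]
  have h1 : ∀ x0, ∑ k ∈ Icc 1 K, ∑ m ∈ sN Al o K (cx K x) x0 k,
      rCA (Ct be l K (cx K x).2.1 (KT l u) (o - 2) x0 (C x0 k) k) (A x0 k) k m y σ ≤
      550 * (y ^ 2 * DA x0 + 3 * σ ^ 2 * DC x0) := by
    intro x0
    exact rCA_x0 (M := H677.rv (cx K x)) (H677.cP_pl ho x0)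
      (Q := fun k m n => QA k (ix k x0) m n) (Q' := fun k m n => QC k (ix k x0) m n)
      (A := A x0) (C := C x0)
      (Cn := fun k _ => Ct be l K (cx K x).2.1 (KT l u) (o - 2) x0 (C x0 k) k)
      (fun k hk n _ m _ hq y hy z hz => agA k hk x0 m n hq z hz y hy)
      (fun k hk n _ m _ hq w hw z hz => agC k hk x0 m n hq z hz w hw)
      (zA x0) (zC x0) le_rfl le_rfl hσ hy0 (fun k _ => H677.sN_sub Al o K (cx K x) x0 k)
      fun k _ m _ => QW_Ct_dom hbe hbe1 (fun y => tr_T hl K u y) _ _ _ _ _ _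
  have h2 : PCAf be y σ ι Al o K (cx K x) sg l u A b C ≤
      ∑ t ∈ rt (cx K x), 2200 * y ^ 2 * (mu * (cP * 8 ^ K)) := by
    unfold H408.PCAf H408.SN
    refine sum_le_sum fun t _ => ?_
    refine (sum_le_sum fun x0 _ => h1 x0).trans ?_
    rw [← mul_sum, sum_add_distrib, ← mul_sum, ← mul_sum]
    have a0 : 0 ≤ ∑ x0 ∈ iv K t, DC x0 := sum_nonneg fun x0 _ => sum_nonneg fun k _ =>
      sum_nonneg fun m _ => sum_nonneg fun n _ => by
        split_ifs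
        · exact H652.sqv_nonneg _ _ _ _
        · exact le_rfl
    have a1 := mul_le_mul_of_nonneg_left (hDA t) (sq_nonneg y)
    have a2 := mul_le_mul_of_nonneg_left (hDC t) (sq_nonneg y)
    have a3 : σ ^ 2 * ∑ x0 ∈ iv K t, DC x0 ≤ y ^ 2 * ∑ x0 ∈ iv K t, DC x0 :=
      mul_le_mul_of_nonneg_right (pow_le_pow_left₀ hσ.le hy 2) a0
    linarith
  refine h2.trans ?_
  rw [sum_const, nsmul_eq_mul]
  have h3 : (rt (cx K x)).card = 3 := by
    unfold H677.rt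
    rw [Int.card_Icc]
    omega
  rw [h3]
  refine le_of_eq ?_
  push_cast
  ring

end fam

end

end Vale.Agent.P141.H831
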