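import Vale.Agent.P141.H170.UEh

/-!
# P141, line W: the mixed charge of a removed projection, without a free parameter

For positive semidefinite `X`, `Y` and an orthogonal projection `P`, `Q = 1 - P`:
`tr φ(X) φ(Y) ≤ tr φ(Q X Q) φ(Y) + 2 (|P X P|_HS |X|_HS tr (P Y))^(1/2)`.
-/

namespace Vale.Agent.P141.H831

open Finset Matrix Vale.Agent.P075 Vale.Agent.P141.PL Vale.Agent.P141.PL.H588
  Vale.Agent.P141.H736 Vale.Agent.P141.H170

noncomputable section

open scoped Classical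

section mat

variable {n : Type*} [Fintype n] [DecidableEq n]

/-- **compression**: `Q φ(X) Q ≤ φ(Q X Q)` -/
theorem phi_compress {X P : Matrix n n ℝ} (hX : X.PosSemidef) (hP : Prj P) :
    (phi ((1 - P) * X * (1 - P)) - (1 - P) * phi X * (1 - P)).PosSemidef := by
  obtain ⟨Q, hQ⟩ : ∃ Q, Q = 1 - P := ⟨_, rfl⟩
  rw [← hQ]
  have hQt : Qᵀ = Q := by rw [hQ]; exact hP.symm
  have hQQ : Q * Q = Q := by rw [hQ]; exact hP.compl.2
  have o1 : Q * P = 0 := by rw [hQ, Matrix.sub_mul, Matrix.one_mul, hP.2, sub_self]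
  have o2 : P * Q = 0 := by rw [hQ, Matrix.mul_sub, Matrix.mul_one, hP.2, sub_self]
  have hPQ : P + Q = 1 := by rw [hQ]; abel
  obtain ⟨W, hWe⟩ : ∃ W, W = Q * X * Q := ⟨_, rfl⟩
  rw [← hWe]
  have hW : W.PosSemidef := by rw [hWe]; exact psd_conj_symm hX hQt
  obtain ⟨R, hR⟩ : ∃ R, R = res W := ⟨_, rfl⟩
  obtain ⟨S, hS⟩ : ∃ S, S = res X := ⟨_, rfl⟩
  have r1 : R * P = P := by
    rw [hR]; refine res_mul_prj hW ?_
    rw [hWe, Matrix.mul_assoc, o1, Matrix.mul_zero]
  have r2 : P * R = P := by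
    rw [hR]; refine prj_mul_res hW ?_
    rw [hWe, ← Matrix.mul_assoc, ← Matrix.mul_assoc, o2, Matrix.zero_mul, Matrix.zero_mul]
  have m1 : (1 + W) * R = 1 := by rw [hR]; exact one_add_mul_res hW
  have hRt : Rᵀ = R := by rw [hR]; exact res_symm hW
  have a1 : (1 + X) * S = 1 := by rw [hS]; exact one_add_mul_res hX
  have a2 : S * (1 + X) = 1 := by rw [hS]; exact res_mul_one_add hX
  have hM : (1 + X).PosSemidef := PosSemidef.one.add hX
  have hSt : Sᵀ = S := by rw [hS]; exact res_symm hX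
  -- `R = Q R Q + P`
  have hR1 : R = Q * R * Q + P := by
    calc R = (P + Q) * R * (P + Q) := by rw [hPQ, Matrix.one_mul, Matrix.mul_one]
      _ = P * R * P + P * R * Q + Q * (R * P) + Q * R * Q := by noncomm_ring
      _ = _ := by rw [r2, r1, hP.2, o2, o1]; abel
  have eW : Q * (1 + X) * Q = (1 + W) - P := by
    rw [Matrix.mul_add, Matrix.mul_one, Matrix.add_mul, hQQ, ← hWe, ← hPQ]
    abel
  obtain ⟨K, hK⟩ : ∃ K, K = Q * R * Q := ⟨_, rfl⟩
  have hKt : Kᵀ = K := by
    rw [hK, transpose_mul, transpose_mul, hQt, hRt, Matrix.mul_assoc]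
  -- `K (1 + X) K = K`
  have hKK : K * (1 + X) * K = K := by
    calc K * (1 + X) * K = Q * (R * (Q * (1 + X) * Q) * R) * Q := by
          rw [hK]; simp only [Matrix.mul_assoc]
      _ = Q * (R * ((1 + W) * R) - (R * P) * R) * Q := by
          rw [eW]
          simp only [Matrix.mul_sub, Matrix.sub_mul, Matrix.mul_assoc]
      _ = Q * R * Q - (Q * P) * Q := by
          rw [m1, r1, r2, Matrix.mul_one, Matrix.mul_sub, Matrix.sub_mul]
      _ = K := by rw [o1, Matrix.zero_mul, sub_zero, hK]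
  have hD : (S - K).PosSemidef := by
    have h := psd_conj_symm hM (B := S - K) (by rw [transpose_sub, hSt, hKt])
    have e : (S - K) * (1 + X) * (S - K) = S - K := by
      calc (S - K) * (1 + X) * (S - K)
          = (S * (1 + X)) * S - (S * (1 + X)) * K - K * ((1 + X) * S) + K * (1 + X) * K := by
            noncomm_ring
        _ = S - K := by
            rw [a2, a1, hKK, Matrix.one_mul, Matrix.one_mul, Matrix.mul_one]
            abel
    rwa [e] at h
  have hfin := psd_conj_symm hD hQt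
  have e : Q * (S - K) * Q = phi W - Q * phi X * Q := by
    have e3 : Q * K * Q = K := by
      rw [hK]
      calc Q * (Q * R * Q) * Q = (Q * Q) * R * (Q * Q) := by simp only [Matrix.mul_assoc]
        _ = _ := by rw [hQQ]
    have e4 : phi W = Q - K := by
      rw [phi, ← hR, hR1, ← hK, ← hPQ]
      abel
    rw [Matrix.mul_sub, Matrix.sub_mul, e3, e4, phi, ← hS, Matrix.mul_sub, Matrix.sub_mul,
      Matrix.mul_one, hQQ]
    abel
  rwa [e] at hfin

omit [DecidableEq n] in
/-- the cross terms -/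
theorem trace_cut_le {A P : Matrix n n ℝ} (B : Matrix n n ℝ) (hA : A.PosSemidef)
    (hP : Prj P) :
    (P * A * B).trace ≤ hs (A * P) * hs (B * P) := by
  have hAt := psd_isSymm hA
  have h := (le_abs_self _).trans (abs_trace_le (A * P) (B * P))
  have e : ((A * P)ᵀ * (B * P)).trace = (P * A * B).trace := by
    rw [transpose_mul, hAt, hP.1]
    calc (P * A * (B * P)).trace = ((P * A * B) * P).trace := by simp only [Matrix.mul_assoc]
      _ = (P * (P * A * B)).trace := trace_mul_comm _ _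
      _ = ((P * P) * A * B).trace := by simp only [Matrix.mul_assoc]
      _ = _ := by rw [hP.2]
  rwa [e] at h

/-- **the mixed energy after a projection of the first matrix** -/
theorem trace_phi_prj {X P Y : Matrix n n ℝ} (hX : X.PosSemidef) (hP : Prj P)
    (hY : Y.PosSemidef) :
    (phi X * phi Y).trace ≤ (phi ((1 - P) * X * (1 - P)) * phi Y).trace
      + 2 * (hs (phi X * P) * hs (phi Y * P)) := by
  have hφ := phi_psd hX
  have hψ := phi_psd hY
  have h1 := trace_mul_le_left hψ (phi_compress hX hP)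
  have e : phi X * phi Y = (1 - P) * phi X * (1 - P) * phi Y
      + (P * phi X * phi Y + phi X * P * phi Y - P * phi X * P * phi Y) := by
    noncomm_ring
  have e1 : (phi X * phi Y).trace = ((1 - P) * phi X * (1 - P) * phi Y).trace
      + ((P * phi X * phi Y).trace + (phi X * P * phi Y).trace
        - (P * phi X * P * phi Y).trace) := by
    conv_lhs => rw [e]
    rw [trace_add, trace_sub, trace_add]
  have h2 := trace_cut_le (phi Y) hφ hP
  have h3 : (phi X * P * phi Y).trace ≤ hs (phi X * P) * hs (phi Y * P) := by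
    have e3 : (phi X * P * phi Y).trace = (P * phi Y * phi X).trace := by
      rw [Matrix.mul_assoc, trace_mul_comm]
    rw [e3, mul_comm (H170.hs _)]
    exact trace_cut_le (phi X) hψ hP
  have h4 : 0 ≤ (P * phi X * P * phi Y).trace :=
    trace_mul_nonneg (psd_conj_symm hφ hP.1) hψ
  rw [e1]
  linarith

/-- **the same with the projection removed from both matrices** -/
theorem trace_phi_prj_both {X P Y : Matrix n n ℝ} (hX : X.PosSemidef) (hP : Prj P)
    (hY : Y.PosSemidef) :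
    (phi X * phi Y).trace
      ≤ (phi ((1 - P) * X * (1 - P)) * phi ((1 - P) * Y * (1 - P))).trace
      + 2 * (hs (phi X * P) * hs (phi Y * P)) := by
  have hφ := phi_psd hX
  have hψ := phi_psd hY
  have hQt : (1 - P)ᵀ = 1 - P := hP.symm
  have hWX : ((1 - P) * X * (1 - P)).PosSemidef := psd_conj_symm hX hQt
  have e : phi X * phi Y = (1 - P) * phi X * (1 - P) * phi Y
      + (P * phi X * phi Y + phi X * P * phi Y - P * phi X * P * phi Y) := by
    noncomm_ring
  have e1 : (phi X * phi Y).trace = ((1 - P) * phi X * (1 - P) * phi Y).trace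
      + ((P * phi X * phi Y).trace + (phi X * P * phi Y).trace
        - (P * phi X * P * phi Y).trace) := by
    conv_lhs => rw [e]
    rw [trace_add, trace_sub, trace_add]
  have h2 := trace_cut_le (phi Y) hφ hP
  have h3 : (phi X * P * phi Y).trace ≤ hs (phi X * P) * hs (phi Y * P) := by
    have e3 : (phi X * P * phi Y).trace = (P * phi Y * phi X).trace := by
      rw [Matrix.mul_assoc, trace_mul_comm]
    rw [e3, mul_comm (H170.hs _)]
    exact trace_cut_le (phi X) hψ hP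
  have h4 : 0 ≤ (P * phi X * P * phi Y).trace :=
    trace_mul_nonneg (psd_conj_symm hφ hP.1) hψ
  -- the `Q` part
  have hQ : ((1 - P) * phi X * (1 - P) * phi Y).trace
      = ((1 - P) * phi X * (1 - P) * ((1 - P) * phi Y * (1 - P))).trace := by
    have hQQ : (1 - P) * (1 - P) = 1 - P := hP.compl.2
    calc ((1 - P) * phi X * (1 - P) * phi Y).trace
        = (((1 - P) * (1 - P)) * phi X * ((1 - P) * (1 - P)) * phi Y).trace := by rw [hQQ]
      _ = ((1 - P) * ((1 - P) * phi X * ((1 - P) * (1 - P)) * phi Y)).trace := by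
          simp only [Matrix.mul_assoc]
      _ = (((1 - P) * phi X * ((1 - P) * (1 - P)) * phi Y) * (1 - P)).trace :=
          trace_mul_comm _ _
      _ = _ := by simp only [Matrix.mul_assoc]
  have h5 : ((1 - P) * phi X * (1 - P) * ((1 - P) * phi Y * (1 - P))).trace
      ≤ (phi ((1 - P) * X * (1 - P)) * phi ((1 - P) * Y * (1 - P))).trace :=
    (trace_mul_le_left (psd_conj_symm hψ hQt) (phi_compress hX hP)).trans
      (trace_mul_le_right (phi_psd hWX) (phi_compress hY hP))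
  rw [e1, hQ]
  linarith

/-- `|φ(X) P|_HS² ≤ |P X P|_HS |X|_HS` -/
theorem hs_phi_prj_sq_le {X P : Matrix n n ℝ} (hX : X.PosSemidef) (hP : Prj P) :
    hs (phi X * P) ^ 2 ≤ hs (P * X * P) * hs X := by
  have hφ := phi_psd hX
  refine (hs_mul_prj_sq_le hP hφ).trans ?_
  have h1 : hs (P * phi X * P) ≤ hs (P * X * P) := by
    refine hs_mono (psd_conj_symm hφ hP.1) ?_
    have := psd_conj_symm (H804.phi_le_self hX) hP.1
    rwa [Matrix.mul_sub, Matrix.sub_mul] at this
  exact mul_le_mul h1 (hs_phi_le hX) (hs_nonneg _) (hs_nonneg _)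

/-- `|φ(Y) P|_HS² ≤ tr (P Y)` -/
theorem hs_phi_prj_sq_le_trace {Y P : Matrix n n ℝ} (hY : Y.PosSemidef) (hP : Prj P) :
    hs (phi Y * P) ^ 2 ≤ (P * Y).trace := by
  have hψ := phi_psd hY
  have e : hs (phi Y * P) ^ 2 = (P * (phi Y * phi Y)).trace := by
    rw [hs_sq, transpose_mul, phi_symm hY, hP.1]
    rw [← hP.trace (phi Y * phi Y)]
    simp only [Matrix.mul_assoc]
  rw [e]
  exact (trace_mul_le_right hP.psd (phi_sub_sq_psd hY)).trans
    (trace_mul_le_right hP.psd (H804.phi_le_self hY))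

/-- `2 |φ(X) P| |φ(Y) P| ≤ 2 (|P X P| |X| tr (P Y))^(1/2)` -/
theorem hs_hs_le {X P Y : Matrix n n ℝ} (hX : X.PosSemidef) (hP : Prj P)
    (hY : Y.PosSemidef) :
    hs (phi X * P) * hs (phi Y * P) ≤ Real.sqrt (hs (P * X * P) * hs X * (P * Y).trace) := by
  refine Real.le_sqrt_of_sq_le ?_
  rw [mul_pow]
  exact mul_le_mul (hs_phi_prj_sq_le hX hP) (hs_phi_prj_sq_le_trace hY hP) (sq_nonneg _)
    (mul_nonneg (hs_nonneg _) (hs_nonneg _))

/-- **the mixed energy after a projection, final form** -/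
theorem trace_phi_prj' {X P Y : Matrix n n ℝ} (hX : X.PosSemidef) (hP : Prj P)
    (hY : Y.PosSemidef) :
    (phi X * phi Y).trace ≤ (phi ((1 - P) * X * (1 - P)) * phi Y).trace
      + 2 * Real.sqrt (hs (P * X * P) * hs X * (P * Y).trace) := by
  have h1 := trace_phi_prj hX hP hY
  have h2 := hs_hs_le hX hP hY
  linarith

theorem trace_phi_prj_both' {X P Y : Matrix n n ℝ} (hX : X.PosSemidef) (hP : Prj P)
    (hY : Y.PosSemidef) :
    (phi X * phi Y).trace
      ≤ (phi ((1 - P) * X * (1 - P)) * phi ((1 - P) * Y * (1 - P))).trace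
      + 2 * Real.sqrt (hs (P * X * P) * hs X * (P * Y).trace) := by
  have h1 := trace_phi_prj_both hX hP hY
  have h2 := hs_hs_le hX hP hY
  linarith

end mat

/-! ### blocks -/

/-- the mixed charge of an event -/
def mxn (N : ℕ) (R S T : ℤ) (k : ℕ) (c : ℤ) (P : ℤ → ℤ → Matrix (Ix k) (Ix k) ℝ)
    (F H : ℤ → ℤ → ℝ) : ℝ :=
  (4 : ℝ) ^ k * ∑ m ∈ iv (N - k) S, ∑ n ∈ iv (N - k) R,
    if c - m - n ∈ iv (N - k) T then
      2 * Real.sqrt (hs (P n m * Xg k k F n m * P n m) * hs (Xg k k F n m)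
        * (P n m * Xg k k H (c - m - n) m).trace) else 0

/-- first half of the charge: `∑ |J| |P X P|_HS |X|_HS` -/
def mxA (N : ℕ) (R S : ℤ) (k : ℕ) (P : ℤ → ℤ → Matrix (Ix k) (Ix k) ℝ)
    (F : ℤ → ℤ → ℝ) : ℝ :=
  (4 : ℝ) ^ k * ∑ m ∈ iv (N - k) S, ∑ n ∈ iv (N - k) R,
    hs (P n m * Xg k k F n m * P n m) * hs (Xg k k F n m)

/-- second half of the charge: `∑ |J| tr (P X_H)` on the plane -/
def mxB (N : ℕ) (R S T : ℤ) (k : ℕ) (c : ℤ) (P : ℤ → ℤ → Matrix (Ix k) (Ix k) ℝ)
    (H : ℤ → ℤ → ℝ) : ℝ :=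
  (4 : ℝ) ^ k * ∑ m ∈ iv (N - k) S, ∑ n ∈ iv (N - k) R,
    if c - m - n ∈ iv (N - k) T then (P n m * Xg k k H (c - m - n) m).trace else 0

theorem mxA_nonneg (N : ℕ) (R S : ℤ) (k : ℕ) (P : ℤ → ℤ → Matrix (Ix k) (Ix k) ℝ)
    (F : ℤ → ℤ → ℝ) : 0 ≤ mxA N R S k P F :=
  mul_nonneg (by positivity) (sum_nonneg fun _ _ => sum_nonneg fun _ _ =>
    mul_nonneg (hs_nonneg _) (hs_nonneg _))

theorem mxB_nonneg {N : ℕ} {R S T : ℤ} {k : ℕ} {c : ℤ}
    {P : ℤ → ℤ → Matrix (Ix k) (Ix k) ℝ} {F F' : ℤ → ℤ → ℝ} (hP : MidP N R S k P F F')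
    (H : ℤ → ℤ → ℝ) : 0 ≤ mxB N R S T k c P H := by
  refine mul_nonneg (by positivity) (sum_nonneg fun m hm => sum_nonneg fun n hn => ?_)
  split_ifs
  · exact (hP n hn m hm).1.trace_nonneg (Xg_psd _ _ _ _ _)
  · exact le_rfl

/-- AM-GM form: any `δ > 0` -/
theorem mxn_le {N : ℕ} {R S T : ℤ} {k : ℕ} {c : ℤ}
    {P : ℤ → ℤ → Matrix (Ix k) (Ix k) ℝ} {F F' : ℤ → ℤ → ℝ} (hP : MidP N R S k P F F')
    (H : ℤ → ℤ → ℝ) {δ : ℝ} (hδ : 0 < δ) :
    mxn N R S T k c P F H ≤ δ * mxA N R S k P F + δ⁻¹ * mxB N R S T k c P H := by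
  unfold mxn mxA mxB
  have key : ∑ m ∈ iv (N - k) S, ∑ n ∈ iv (N - k) R,
      (if c - m - n ∈ iv (N - k) T then
      2 * Real.sqrt (hs (P n m * Xg k k F n m * P n m) * hs (Xg k k F n m)
        * (P n m * Xg k k H (c - m - n) m).trace) else 0)
      ≤ ∑ m ∈ iv (N - k) S, ∑ n ∈ iv (N - k) R,
      (δ * (hs (P n m * Xg k k F n m * P n m) * hs (Xg k k F n m))
        + δ⁻¹ * (if c - m - n ∈ iv (N - k) T then
          (P n m * Xg k k H (c - m - n) m).trace else 0)) := by
    refine sum_le_sum fun m hm => sum_le_sum fun n hn => ?_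
    have h0 : 0 ≤ hs (P n m * Xg k k F n m * P n m) * hs (Xg k k F n m) :=
      mul_nonneg (hs_nonneg _) (hs_nonneg _)
    split_ifs
    · have h1 := (hP n hn m hm).1.trace_nonneg (Xg_psd k k H (c - m - n) m)
      set a := hs (P n m * Xg k k F n m * P n m) * hs (Xg k k F n m)
      set b := (P n m * Xg k k H (c - m - n) m).trace
      have h2 : Real.sqrt (a * b) ≤ (δ * a + δ⁻¹ * b) / 2 := by
        refine Real.sqrt_le_iff.2 ⟨by positivity, ?_⟩
        have e : δ * δ⁻¹ = 1 := mul_inv_cancel₀ hδ.ne'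
        have : a * b = (δ * a) * (δ⁻¹ * b) := by
          linear_combination (-(a * b)) * e
        rw [this]
        nlinarith [sq_nonneg (δ * a - δ⁻¹ * b)]
      linarith
    · have : 0 ≤ δ * (hs (P n m * Xg k k F n m * P n m) * hs (Xg k k F n m)) := by positivity
      linarith
  have h := mul_le_mul_of_nonneg_left key (by positivity : (0 : ℝ) ≤ 4 ^ k)
  refine h.trans (le_of_eq ?_)
  simp only [sum_add_distrib, ← mul_sum]
  ring

/-- **change of the mixed energy**, `H` static, no free parameter -/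
theorem Mk_mid_n (N : ℕ) (R S T : ℤ) (k : ℕ) (c : ℤ) {P : ℤ → ℤ → Matrix (Ix k) (Ix k) ℝ}
    {F F' : ℤ → ℤ → ℝ} (H : ℤ → ℤ → ℝ) (hP : MidP N R S k P F F') :
    Mk N R S T k c F H ≤ Mk N R S T k c F' H + mxn N R S T k c P F H := by
  have key : ∑ m ∈ iv (N - k) S, ∑ n ∈ iv (N - k) R,
      (if c - m - n ∈ iv (N - k) T then
        (phi (Xg k k F n m) * phi (Xg k k H (c - m - n) m)).trace else 0)
      ≤ ∑ m ∈ iv (N - k) S, ∑ n ∈ iv (N - k) R,
        ((if c - m - n ∈ iv (N - k) T then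
          (phi (Xg k k F' n m) * phi (Xg k k H (c - m - n) m)).trace else 0)
        + (if c - m - n ∈ iv (N - k) T then
          2 * Real.sqrt (hs (P n m * Xg k k F n m * P n m) * hs (Xg k k F n m)
            * (P n m * Xg k k H (c - m - n) m).trace) else 0)) := by
    refine sum_le_sum fun m hm => sum_le_sum fun n hn => ?_
    split_ifs
    · rw [hP.Xg_eq hn hm]
      exact trace_phi_prj' (Xg_psd k k F n m) (hP n hn m hm).1 (Xg_psd k k H (c - m - n) m)
    · simp
  unfold Mk mxn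
  have h := mul_le_mul_of_nonneg_left key (by positivity : (0 : ℝ) ≤ 4 ^ k)
  refine h.trans (le_of_eq ?_)
  simp only [sum_add_distrib]
  ring

/-- **Change of the functional under projections in the middle variable**, `H` static, energies
charged in HS form, no free parameter. -/
theorem BF_mid_n {N k : ℕ} (h : k ≤ N) (R S T : ℤ) (c : ℕ → ℤ)
    {P : ℤ → ℤ → Matrix (Ix k) (Ix k) ℝ} {F F' : ℤ → ℤ → ℝ} (H : ℤ → ℤ → ℝ)
    (hP : MidP N R S k P F F') :
    BF N R S T c k (F, H) ≤ BF N R S T c k (F', H)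
      + (28 * ch N R S k 0 (evP P) F F' + 128 * chW N R S k (evP P) F F'
        + 2 * mxn N R S T k (c k) P F H) := by
  have a1 := Mk_mid_n N R S T k (c k) H hP
  have a2 := en_hs (r := 0) (by omega) R S hP.agree
  have a3 := Wt_hs h R S hP.agree
  rw [Nat.add_zero] at a2
  unfold BF
  simp only
  linarith

/-- **Path form with label events, HS charges, no free parameter.** -/
theorem sum_mnk_mid_n {N : ℕ} (R S T : ℤ) {c : ℕ → ℤ} (hc : Pl c)
    {P : (k : ℕ) → ℤ → ℤ → Matrix (Ix k) (Ix k) ℝ} {Q Q' : ℕ → ℤ → ℤ → Prop}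
    {F G H : ℕ → ℤ → ℤ → ℝ} {κ₃ κ' : ℝ}
    (hF : ∀ k < N, MidP N R S k (P k) (F (k + 1)) (G k))
    (hG : ∀ k < N, Agree N R S k (Q k) (G k) (F k)) (hH : Path N T S Q' H)
    (hF0 : F 0 = 0) (hH0 : H 0 = 0)
    (h3 : ∀ k < N, CapX N R S k κ₃ (G k)) (hκ' : ∀ k < N, CapX N T S k κ' (H (k + 1))) :
    ∑ k ∈ Icc 1 N, mnk N R S T k (c k) (F k) (H k)
      ≤ ∑ k ∈ range N, ((28 * ch N R S k 0 (evP (P k)) (F (k + 1)) (G k)
          + 128 * chW N R S k (evP (P k)) (F (k + 1)) (G k)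
          + 2 * mxn N R S T k (c k) (P k) (F (k + 1)) (H (k + 1)))
        + (2 * mix N R S T k (c k) (Q k) (Q' k) (G k) (H (k + 1))
          + 540 * (κ₃ * sqQ N R S k (Q k) (G k))
          + 540 * (κ' * sqQ N T S k (Q' k) (H (k + 1))))) := by
  refine sum_mnk_of_change R S T hc hF0 hH0 fun k hk' => ?_
  have a1 := BF_mid_n (k := k) (by omega) R S T c (H (k + 1)) (hF k hk')
  have a2 := BF_change (k := k) (by omega) R S T c (hG k hk') (hH k hk') (h3 k hk') (hκ' k hk')
  linarith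

end

end Vale.Agent.P141.H831
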