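import Vale.Agent.P141.H831.MixN
import Vale.Agent.P141.H555.MxPhi

/-!
# P141, CE, M11: Cauchy-Schwarz and scaling for the mixed charge `mxn`

`mxn ≤ 2 (∑ |J| |P X P|_HS |X|_HS)^(1/2) (∑ |J| tr (P X_H))^(1/2)`, one scale and all scales.
-/

namespace Vale.Agent.P141.H831

open Finset Matrix Vale.Agent.P075 Vale.Agent.P141.PL Vale.Agent.P141.PL.H588 Vale.Agent.P141.H736
open Vale.Agent.P141.H170 Vale.Agent.P141.H555

noncomputable section

open scoped Classical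

/-- `∑ |J| |P X P|_HS |X|_HS` over the events of a scale -/
def rmN (N : ℕ) (R S : ℤ) (k : ℕ) (P : ℤ → ℤ → Matrix (Ix k) (Ix k) ℝ) (F : ℤ → ℤ → ℝ) : ℝ :=
  4 ^ k * ∑ m ∈ iv (N - k) S, ∑ n ∈ iv (N - k) R,
    if P n m ≠ 0 then hs (P n m * Xg k k F n m * P n m) * hs (Xg k k F n m) else 0

/-- `∑ |J| |X|_HS²` over the events of a scale (values before the event) -/
def rmE (N : ℕ) (R S : ℤ) (k : ℕ) (P : ℤ → ℤ → Matrix (Ix k) (Ix k) ℝ) (F : ℤ → ℤ → ℝ) : ℝ :=
  4 ^ k * ∑ m ∈ iv (N - k) S, ∑ n ∈ iv (N - k) R,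
    if P n m ≠ 0 then hs (Xg k k F n m) ^ 2 else 0

theorem rmN_nonneg (N : ℕ) (R S : ℤ) (k : ℕ) (P : ℤ → ℤ → Matrix (Ix k) (Ix k) ℝ)
    (F : ℤ → ℤ → ℝ) : 0 ≤ rmN N R S k P F := by
  unfold rmN
  refine mul_nonneg (by positivity) (sum_nonneg fun m _ => sum_nonneg fun n _ => ?_)
  split_ifs
  · exact mul_nonneg (hs_nonneg _) (hs_nonneg _)
  · exact le_rfl

theorem rmE_nonneg (N : ℕ) (R S : ℤ) (k : ℕ) (P : ℤ → ℤ → Matrix (Ix k) (Ix k) ℝ)
    (F : ℤ → ℤ → ℝ) : 0 ≤ rmE N R S k P F := by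
  unfold rmE
  refine mul_nonneg (by positivity) (sum_nonneg fun m _ => sum_nonneg fun n _ => ?_)
  split_ifs
  · exact sq_nonneg _
  · exact le_rfl

/-- `∑ |J| |P X P| |X| ≤ (∑ |J| |P X P|²)^(1/2) (∑ |J| |X|²)^(1/2)` -/
theorem rmN_le (N : ℕ) (R S : ℤ) (k : ℕ) (P : ℤ → ℤ → Matrix (Ix k) (Ix k) ℝ)
    (F : ℤ → ℤ → ℝ) : rmN N R S k P F ≤ √(rm4 N R S k P F) * √(rmE N R S k P F) := by
  have h4 : (0 : ℝ) ≤ 4 ^ k := by positivity
  have key : rmN N R S k P F ≤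
      ∑ m ∈ iv (N - k) S, ∑ n ∈ iv (N - k) R,
        √(4 ^ k * (if P n m ≠ 0 then hs (P n m * Xg k k F n m * P n m) ^ 2 else 0)) *
        √(4 ^ k * (if P n m ≠ 0 then hs (Xg k k F n m) ^ 2 else 0)) := by
    unfold rmN
    rw [mul_sum]
    refine sum_le_sum fun m _ => ?_
    rw [mul_sum]
    refine sum_le_sum fun n _ => ?_
    by_cases h1 : P n m ≠ 0
    · rw [if_pos h1, if_pos h1, if_pos h1, Real.sqrt_mul h4, Real.sqrt_mul h4,
        Real.sqrt_sq (H170.hs_nonneg _), Real.sqrt_sq (H170.hs_nonneg _)]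
      refine le_of_eq ?_
      calc (4 : ℝ) ^ k * _ = √(4 ^ k) * √(4 ^ k) * (hs (P n m * Xg k k F n m * P n m) *
            hs (Xg k k F n m)) := by rw [Real.mul_self_sqrt h4]
        _ = _ := by ring
    · rw [if_neg h1, mul_zero]
      positivity
  refine key.trans ?_
  rw [← sum_product']
  refine (Real.sum_mul_le_sqrt_mul_sqrt _ _ _).trans (le_of_eq ?_)
  unfold rm4 rmE
  rw [mul_sum, mul_sum]
  simp only [mul_sum]
  rw [← sum_product', ← sum_product']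
  congr 1
  · congr 1
    refine sum_congr rfl fun p _ => Real.sq_sqrt (mul_nonneg h4 ?_)
    split_ifs
    · exact sq_nonneg _
    · exact le_rfl
  · congr 1
    refine sum_congr rfl fun p hp => Real.sq_sqrt (mul_nonneg h4 ?_)
    split_ifs
    · exact sq_nonneg _
    · exact le_rfl

/-- **the mixed charge, one scale** -/
theorem mxn_le_sqrt {N : ℕ} {R S T : ℤ} {k : ℕ} {c : ℤ}
    {P : ℤ → ℤ → Matrix (Ix k) (Ix k) ℝ} (hP : ∀ n ∈ iv (N - k) R, ∀ m ∈ iv (N - k) S, Prj (P n m))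
    (F H : ℤ → ℤ → ℝ) :
    mxn N R S T k c P F H ≤ 2 * (√(rmN N R S k P F) * √(rmH N R S T k c P H)) := by
  have h4 : (0 : ℝ) ≤ 4 ^ k := by positivity
  have key : mxn N R S T k c P F H ≤
      2 * ∑ m ∈ iv (N - k) S, ∑ n ∈ iv (N - k) R,
        √(4 ^ k * (if P n m ≠ 0 then hs (P n m * Xg k k F n m * P n m)
          * hs (Xg k k F n m) else 0)) *
        √(4 ^ k * (if c - m - n ∈ iv (N - k) T ∧ P n m ≠ 0 then
          (P n m * Xg k k H (c - m - n) m).trace else 0)) := by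
    unfold mxn
    rw [mul_sum, mul_sum]
    refine sum_le_sum fun m hm => ?_
    rw [mul_sum, mul_sum]
    refine sum_le_sum fun n hn => ?_
    by_cases h0 : P n m = 0
    · have : (if c - m - n ∈ iv (N - k) T then
          2 * Real.sqrt (hs (P n m * Xg k k F n m * P n m) * hs (Xg k k F n m)
            * (P n m * Xg k k H (c - m - n) m).trace) else 0) = 0 := by
        rw [h0]
        simp
      rw [this, mul_zero]
      positivity
    · by_cases h1 : c - m - n ∈ iv (N - k) T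
      · rw [if_pos h1, if_pos h0, if_pos ⟨h1, h0⟩]
        have hh : 0 ≤ hs (P n m * Xg k k F n m * P n m) * hs (Xg k k F n m) :=
          mul_nonneg (H170.hs_nonneg _) (H170.hs_nonneg _)
        rw [Real.sqrt_mul h4, Real.sqrt_mul h4, Real.sqrt_mul hh]
        refine le_of_eq ?_
        calc (4 : ℝ) ^ k * (2 * (√(hs (P n m * Xg k k F n m * P n m) * hs (Xg k k F n m))
              * √(P n m * Xg k k H (c - m - n) m).trace))
            = √(4 ^ k) * √(4 ^ k) * (2 * (√(hs (P n m * Xg k k F n m * P n m)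
              * hs (Xg k k F n m)) * √(P n m * Xg k k H (c - m - n) m).trace)) := by
              rw [Real.mul_self_sqrt h4]
          _ = _ := by ring
      · rw [if_neg h1, mul_zero]
        positivity
  refine key.trans ?_
  refine mul_le_mul_of_nonneg_left ?_ (by norm_num)
  rw [← sum_product']
  refine (Real.sum_mul_le_sqrt_mul_sqrt _ _ _).trans (le_of_eq ?_)
  unfold rmN rmH
  rw [mul_sum, mul_sum]
  simp only [mul_sum]
  rw [← sum_product', ← sum_product']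
  congr 1
  · congr 1
    refine sum_congr rfl fun p _ => Real.sq_sqrt (mul_nonneg h4 ?_)
    split_ifs
    · exact mul_nonneg (H170.hs_nonneg _) (H170.hs_nonneg _)
    · exact le_rfl
  · congr 1
    refine sum_congr rfl fun p hp => Real.sq_sqrt (mul_nonneg h4 ?_)
    rw [mem_product] at hp
    split_ifs
    · exact (hP p.2 hp.2 p.1 hp.1).trace_nonneg (Xg_psd ..)
    · exact le_rfl

/-- **the mixed charge, all scales** -/
theorem sum_mxn_le {N : ℕ} {R S T : ℤ} {c : ℕ → ℤ} {P : (k : ℕ) → ℤ → ℤ → Matrix (Ix k) (Ix k) ℝ}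
    (hP : ∀ k < N, ∀ n ∈ iv (N - k) R, ∀ m ∈ iv (N - k) S, Prj (P k n m))
    (F H : ℕ → ℤ → ℤ → ℝ) :
    ∑ k ∈ range N, mxn N R S T k (c k) (P k) (F k) (H k) ≤
      2 * (√(∑ k ∈ range N, rmN N R S k (P k) (F k)) *
        √(∑ k ∈ range N, rmH N R S T k (c k) (P k) (H k))) := by
  refine (sum_le_sum fun k hk => mxn_le_sqrt (hP k (mem_range.1 hk)) (F k) (H k)).trans ?_
  rw [← mul_sum]
  refine mul_le_mul_of_nonneg_left ?_ (by norm_num)
  refine (Real.sum_mul_le_sqrt_mul_sqrt _ _ _).trans (le_of_eq ?_)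
  congr 1
  · congr 1
    exact sum_congr rfl fun k _ => Real.sq_sqrt (rmN_nonneg ..)
  · congr 1
    exact sum_congr rfl fun k hk => Real.sq_sqrt (rmH_nonneg (hP k (mem_range.1 hk)) _)

/-! ### scaling -/

theorem rmN_smul (N : ℕ) (R S : ℤ) (k : ℕ) (P : ℤ → ℤ → Matrix (Ix k) (Ix k) ℝ)
    {μ : ℝ} (hμ : 0 ≤ μ) (F : ℤ → ℤ → ℝ) :
    rmN N R S k P (fun x y => √μ * F x y) = μ ^ 2 * rmN N R S k P F := by
  unfold rmN
  rw [mul_left_comm]
  congr 1
  rw [mul_sum]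
  refine sum_congr rfl fun m _ => ?_
  rw [mul_sum]
  refine sum_congr rfl fun n _ => ?_
  rw [mul_ite, mul_zero, H958.Xg_smul k k hμ, Matrix.mul_smul, Matrix.smul_mul, hs_smul hμ,
    hs_smul hμ]
  split_ifs
  · ring
  · rfl

/-- `mxn (√μ F) (√ν H) = μ √ν mxn F H` -/
theorem mxn_smul (N : ℕ) (R S T : ℤ) (k : ℕ) (c : ℤ) (P : ℤ → ℤ → Matrix (Ix k) (Ix k) ℝ)
    {μ ν : ℝ} (hμ : 0 ≤ μ) (hν : 0 ≤ ν) (F H : ℤ → ℤ → ℝ) :
    mxn N R S T k c P (fun x y => √μ * F x y) (fun x y => √ν * H x y)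
      = μ * √ν * mxn N R S T k c P F H := by
  unfold mxn
  rw [mul_left_comm]
  congr 1
  rw [mul_sum]
  refine sum_congr rfl fun m _ => ?_
  rw [mul_sum]
  refine sum_congr rfl fun n _ => ?_
  rw [mul_ite, mul_zero, H958.Xg_smul k k hμ, H958.Xg_smul k k hν, Matrix.mul_smul,
    Matrix.smul_mul, hs_smul hμ, hs_smul hμ, Matrix.mul_smul, trace_smul, smul_eq_mul]
  have e : μ * hs (P n m * Xg k k F n m * P n m) * (μ * hs (Xg k k F n m))
      * (ν * (P n m * Xg k k H (c - m - n) m).trace)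
      = (μ * μ) * (ν * (hs (P n m * Xg k k F n m * P n m) * hs (Xg k k F n m)
        * (P n m * Xg k k H (c - m - n) m).trace)) := by ring
  split_ifs
  · rw [e, Real.sqrt_mul (mul_self_nonneg μ), Real.sqrt_mul_self hμ, Real.sqrt_mul hν]
    ring
  · rfl

end

end Vale.Agent.P141.H831
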